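import Mathlib

/-!
P254, block (C): concentration of the law `∝ 1_K(y) exp (⟨v,y⟩ - ⟨y,Ny⟩/2)` at the support point of
the strictly convex body `K` as `|v| → ∞`, uniformly for bounded `N`.
-/

open MeasureTheory Set Matrix Filter Topology Metric

namespace Vale.Agent.P254.R304

variable {n : ℕ}

/-- unnormalised integral against the law of `Y` -/
noncomputable def IY (K : Set (Fin n → ℝ)) (N : Matrix (Fin n) (Fin n) ℝ) (v : Fin n → ℝ)
    (φ : (Fin n → ℝ) → ℝ) : ℝ :=
  ∫ y in K, φ y * Real.exp (v ⬝ᵥ y - (1 / 2) * (y ⬝ᵥ N *ᵥ y))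

/-- expectation for the law of `Y` -/
noncomputable def EY (K : Set (Fin n → ℝ)) (N : Matrix (Fin n) (Fin n) ℝ) (v : Fin n → ℝ)
    (φ : (Fin n → ℝ) → ℝ) : ℝ :=
  IY K N v φ / IY K N v (fun _ => 1)

lemma abs_dot_le (v y : Fin n → ℝ) : |v ⬝ᵥ y| ≤ n * ‖v‖ * ‖y‖ := by
  unfold dotProduct
  calc |∑ i, v i * y i| ≤ ∑ i, |v i * y i| := Finset.abs_sum_le_sum_abs _ _
    _ ≤ ∑ _i : Fin n, ‖v‖ * ‖y‖ := by
        refine Finset.sum_le_sum fun i _ => ?_
        rw [abs_mul]
        exact mul_le_mul (norm_le_pi_norm v i) (norm_le_pi_norm y i) (abs_nonneg _) (norm_nonneg _)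
    _ = n * ‖v‖ * ‖y‖ := by simp [mul_assoc]

lemma norm_sq_le_dot (v : Fin n → ℝ) : ‖v‖ ^ 2 ≤ v ⬝ᵥ v := by
  have h0 : 0 ≤ v ⬝ᵥ v := by
    unfold dotProduct
    exact Finset.sum_nonneg fun i _ => mul_self_nonneg _
  have h1 : ‖v‖ ≤ Real.sqrt (v ⬝ᵥ v) := by
    rw [pi_norm_le_iff_of_nonneg (Real.sqrt_nonneg _)]
    intro i
    apply Real.le_sqrt_of_sq_le
    rw [Real.norm_eq_abs, sq_abs]
    unfold dotProduct
    rw [sq]
    exact Finset.single_le_sum (f := fun i => v i * v i) (fun i _ => mul_self_nonneg _)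
      (Finset.mem_univ i)
  calc ‖v‖ ^ 2 ≤ Real.sqrt (v ⬝ᵥ v) ^ 2 := by gcongr
    _ = v ⬝ᵥ v := Real.sq_sqrt h0

/-- Modulus of strict convexity, uniform in the direction. -/
lemma strict_mod {K : Set (Fin n → ℝ)} (hK : IsCompact K) (hs : StrictConvex ℝ K) {η : ℝ}
    (hη : 0 < η) :
    ∃ δ : ℝ, 0 < δ ∧ ∀ v : Fin n → ℝ, ∀ y0 ∈ K, (∀ y ∈ K, v ⬝ᵥ y ≤ v ⬝ᵥ y0) →
      ∀ y ∈ K, η ≤ ‖y - y0‖ → v ⬝ᵥ y ≤ v ⬝ᵥ y0 - 2 * δ * ‖v‖ := by
  set P : Set ((Fin n → ℝ) × (Fin n → ℝ)) := (K ×ˢ K) ∩ {p | η ≤ ‖p.1 - p.2‖} with hP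
  have hPc : IsCompact P := by
    refine (hK.prod hK).inter_right ?_
    exact isClosed_le continuous_const (by fun_prop)
  set mid : ((Fin n → ℝ) × (Fin n → ℝ)) → (Fin n → ℝ) :=
    fun p => (1 / 2 : ℝ) • p.1 + (1 / 2 : ℝ) • p.2 with hmid
  have hmc : Continuous mid := by fun_prop
  have hsub : mid '' P ⊆ interior K := by
    rintro _ ⟨⟨y, z⟩, ⟨⟨hy, hz⟩, hne⟩, rfl⟩
    have hyz : y ≠ z := by
      rintro rfl
      simp only [mem_ofPred_eq, sub_self, norm_zero] at hne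
      linarith
    exact hs hy hz hyz (by norm_num) (by norm_num) (by norm_num)
  obtain ⟨δ, hδ, hδs⟩ := (hPc.image hmc).exists_cthickening_subset_open isOpen_interior hsub
  refine ⟨δ, hδ, fun v y0 hy0 hmax y hy hne => ?_⟩
  rcases eq_or_ne v 0 with rfl | hv
  · simp
  have hvn : 0 < ‖v‖ := norm_pos_iff.2 hv
  have hmem : (y, y0) ∈ P := ⟨⟨hy, hy0⟩, hne⟩
  set p := mid (y, y0) with hp
  set z := p + (δ / ‖v‖) • v with hz
  have hzK : z ∈ K := by
    apply interior_subset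
    apply hδs
    apply mem_cthickening_of_dist_le z p δ _ (mem_image_of_mem mid hmem)
    rw [dist_eq_norm, hz, add_sub_cancel_left, norm_smul, Real.norm_eq_abs, abs_of_pos (by positivity)]
    exact (div_mul_cancel₀ _ hvn.ne').le
  have h1 := hmax z hzK
  have h2 : v ⬝ᵥ z = (1 / 2) * (v ⬝ᵥ y) + (1 / 2) * (v ⬝ᵥ y0) + (δ / ‖v‖) * (v ⬝ᵥ v) := by
    simp only [hz, hp, hmid, dotProduct_add, dotProduct_smul, smul_eq_mul]
  have h3 : δ * ‖v‖ ≤ (δ / ‖v‖) * (v ⬝ᵥ v) := by
    have := norm_sq_le_dot v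
    calc δ * ‖v‖ = (δ / ‖v‖) * ‖v‖ ^ 2 := by field_simp
      _ ≤ (δ / ‖v‖) * (v ⬝ᵥ v) := by gcongr
  linarith

/-- quadratic forms are bounded on a bounded set -/
lemma quad_bound {K : Set (Fin n → ℝ)} {D L : ℝ} (hD : ∀ y ∈ K, ‖y‖ ≤ D) (hL : 0 ≤ L)
    {N : Matrix (Fin n) (Fin n) ℝ} (hN : ∀ i j, |N i j| ≤ L) {y : Fin n → ℝ} (hy : y ∈ K) :
    |(1 / 2) * (y ⬝ᵥ N *ᵥ y)| ≤ n * D * (n * L * D) := by
  have hD0 : 0 ≤ D := (norm_nonneg y).trans (hD y hy)
  have h1 : ‖N *ᵥ y‖ ≤ n * L * D := by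
    rw [pi_norm_le_iff_of_nonneg (by positivity)]
    intro i
    rw [Real.norm_eq_abs]
    simp only [mulVec, dotProduct]
    calc |∑ j, N i j * y j| ≤ ∑ j, |N i j * y j| := Finset.abs_sum_le_sum_abs _ _
      _ ≤ ∑ _j : Fin n, L * D := by
          refine Finset.sum_le_sum fun j _ => ?_
          rw [abs_mul]
          exact mul_le_mul (hN i j) ((norm_le_pi_norm y j).trans (hD y hy)) (abs_nonneg _) hL
      _ = n * L * D := by simp [mul_assoc]
  rw [abs_mul, abs_of_pos (by norm_num : (0:ℝ) < 1 / 2)]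
  have h2 := abs_dot_le y (N *ᵥ y)
  have h3 : n * ‖y‖ * ‖N *ᵥ y‖ ≤ n * D * (n * L * D) := by
    have := hD y hy
    gcongr
  have h4 : 0 ≤ |y ⬝ᵥ N *ᵥ y| := abs_nonneg _
  linarith

/-- `Y` is concentrated at the support point. -/
theorem conc {K : Set (Fin n → ℝ)} (hK : IsCompact K) (hs : StrictConvex ℝ K)
    (hi : (interior K).Nonempty) (L : ℝ) {η : ℝ} (hη : 0 < η) :
    ∃ R : ℝ, ∀ N : Matrix (Fin n) (Fin n) ℝ, (∀ i j, |N i j| ≤ L) → ∀ v : Fin n → ℝ, R ≤ ‖v‖ →
      ∃ y0 ∈ K, IY K N v (fun y => ‖y - y0‖) ≤ η * IY K N v (fun _ => 1) := by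
  obtain ⟨D, hDpos, hD⟩ := hK.isBounded.exists_pos_norm_le
  obtain ⟨δ, hδ, hmod⟩ := strict_mod hK hs (half_pos hη)
  obtain ⟨x0, hx0⟩ := hi
  obtain ⟨r, hr, hball⟩ := Metric.isOpen_iff.1 isOpen_interior x0 hx0
  have hball' : ball x0 r ⊆ K := hball.trans interior_subset
  set L' := max L 0 with hL'
  set Cq : ℝ := n * D * (n * L' * D) with hCq
  set S : ℝ := (volume K).toReal with hS
  have hS0 : 0 ≤ S := ENNReal.toReal_nonneg
  set l : ℝ := min 1 (δ / (2 * n * D + 1)) with hl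
  have hl0 : 0 < l := lt_min one_pos (by positivity)
  have hl1 : l ≤ 1 := min_le_left _ _
  have hl2 : l * (2 * n * D) ≤ δ := by
    have h1 : l ≤ δ / (2 * n * D + 1) := min_le_right _ _
    rw [le_div_iff₀ (by positivity)] at h1
    nlinarith
  set V : ℝ := (volume (ball (0 : Fin n → ℝ) (l * r))).toReal with hV
  have hVpos : 0 < V := by
    apply ENNReal.toReal_pos
    · exact (measure_ball_pos _ _ (by positivity)).ne'
    · exact measure_ball_lt_top.ne
  set a : ℝ := 2 * D * S * Real.exp (2 * Cq) with ha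
  have ha0 : 0 ≤ a := by positivity
  set b : ℝ := (η / 2) * V with hb
  have hb0 : 0 < b := by positivity
  refine ⟨a / (b * δ), fun N hN v hv => ?_⟩
  have hN' : ∀ i j, |N i j| ≤ L' := fun i j => (hN i j).trans (le_max_left _ _)
  have hL'0 : 0 ≤ L' := le_max_right _ _
  have hKne : K.Nonempty := ⟨x0, interior_subset hx0⟩
  have hvc : ContinuousOn (fun y : Fin n → ℝ => v ⬝ᵥ y) K := by
    have : Continuous (fun y : Fin n → ℝ => v ⬝ᵥ y) := by
      unfold dotProduct; fun_prop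
    exact this.continuousOn
  obtain ⟨y0, hy0, hmax⟩ := hK.exists_isMaxOn hKne hvc
  have hmax' : ∀ y ∈ K, v ⬝ᵥ y ≤ v ⬝ᵥ y0 := fun y hy => hmax hy
  refine ⟨y0, hy0, ?_⟩
  set w : (Fin n → ℝ) → ℝ := fun y => Real.exp (v ⬝ᵥ y - (1 / 2) * (y ⬝ᵥ N *ᵥ y)) with hw
  have hwc : Continuous w := by
    simp only [hw, dotProduct, mulVec]
    fun_prop
  have hKm : MeasurableSet K := hK.measurableSet
  have hwint : IntegrableOn w K := hwc.continuousOn.integrableOn_compact hK
  have hwint' : IntegrableOn (fun y => 1 * w y) K := by simpa using hwint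
  have hnint : IntegrableOn (fun y => ‖y - y0‖ * w y) K := by
    have hc : Continuous (fun y => ‖y - y0‖ * w y) := by fun_prop
    exact hc.continuousOn.integrableOn_compact hK
  have hKfin : volume K ≠ ⊤ := hK.measure_lt_top.ne
  set E : ℝ := Real.exp (v ⬝ᵥ y0 - δ * ‖v‖ - Cq) with hE
  have hE0 : 0 < E := Real.exp_pos _
  -- upper bound
  have hup : IY K N v (fun y => ‖y - y0‖) ≤
      (η / 2) * IY K N v (fun _ => 1) + S * (2 * D * Real.exp (v ⬝ᵥ y0 - 2 * δ * ‖v‖ + Cq)) := by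
    have e1 : (η / 2) * IY K N v (fun _ => 1) + S * (2 * D * Real.exp (v ⬝ᵥ y0 - 2 * δ * ‖v‖ + Cq))
        = ∫ y in K, ((η / 2) * (1 * w y) + 2 * D * Real.exp (v ⬝ᵥ y0 - 2 * δ * ‖v‖ + Cq)) := by
      rw [integral_add (hwint'.const_mul _) (integrableOn_const hKfin), integral_const_mul,
        setIntegral_const]
      simp only [smul_eq_mul, Measure.real, ← hS]
      rfl
    rw [e1]
    refine setIntegral_mono_on hnint ((hwint'.const_mul _).add (integrableOn_const hKfin)) hKm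
      fun y hy => ?_
    change ‖y - y0‖ * w y ≤ _
    have hw0 : 0 < w y := Real.exp_pos _
    rcases lt_or_ge ‖y - y0‖ (η / 2) with h | h
    · have : ‖y - y0‖ * w y ≤ (η / 2) * w y := by gcongr
      have h2 : 0 ≤ 2 * D * Real.exp (v ⬝ᵥ y0 - 2 * δ * ‖v‖ + Cq) := by positivity
      linarith
    · have h1 := hmod v y0 hy0 hmax' y hy h
      have h2 : w y ≤ Real.exp (v ⬝ᵥ y0 - 2 * δ * ‖v‖ + Cq) := by
        apply Real.exp_le_exp.2
        have := (abs_le.1 (quad_bound hD hL'0 hN' hy)).1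
        linarith
      have h3 : ‖y - y0‖ ≤ 2 * D := by
        calc ‖y - y0‖ ≤ ‖y‖ + ‖y0‖ := norm_sub_le _ _
          _ ≤ D + D := add_le_add (hD y hy) (hD y0 hy0)
          _ = 2 * D := by ring
      have h4 : ‖y - y0‖ * w y ≤ 2 * D * Real.exp (v ⬝ᵥ y0 - 2 * δ * ‖v‖ + Cq) := by
        gcongr
      have h5 : 0 ≤ (η / 2) * (1 * w y) := by positivity
      linarith
  -- lower bound
  set p : Fin n → ℝ := (1 - l) • y0 + l • x0 with hp
  have hsubK : ball p (l * r) ⊆ K := by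
    intro y hy
    have hz : x0 + l⁻¹ • (y - p) ∈ K := by
      apply hball'
      rw [mem_ball, dist_eq_norm, add_sub_cancel_left, norm_smul, norm_inv, Real.norm_eq_abs,
        abs_of_pos hl0]
      rw [mem_ball, dist_eq_norm] at hy
      calc l⁻¹ * ‖y - p‖ < l⁻¹ * (l * r) := by gcongr
        _ = r := by field_simp
    have := hs.convex hy0 hz (by linarith : (0:ℝ) ≤ 1 - l) hl0.le (by ring)
    convert this using 1
    rw [smul_add, smul_smul, mul_inv_cancel₀ hl0.ne', one_smul, hp]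
    abel
  have hlow : ∀ y ∈ ball p (l * r), E ≤ w y := by
    intro y hy
    have hyK := hsubK hy
    have hz : x0 + l⁻¹ • (y - p) ∈ K := by
      apply hball'
      rw [mem_ball, dist_eq_norm, add_sub_cancel_left, norm_smul, norm_inv, Real.norm_eq_abs,
        abs_of_pos hl0]
      rw [mem_ball, dist_eq_norm] at hy
      calc l⁻¹ * ‖y - p‖ < l⁻¹ * (l * r) := by gcongr
        _ = r := by field_simp
    set z := x0 + l⁻¹ • (y - p) with hzdef
    have hyz : y = (1 - l) • y0 + l • z := by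
      rw [hzdef, smul_add, smul_smul, mul_inv_cancel₀ hl0.ne', one_smul, hp]
      abel
    have h1 : v ⬝ᵥ y = v ⬝ᵥ y0 - l * (v ⬝ᵥ (y0 - z)) := by
      rw [hyz, dotProduct_add, dotProduct_smul, dotProduct_smul, dotProduct_sub, smul_eq_mul,
        smul_eq_mul]
      ring
    have h2 : v ⬝ᵥ (y0 - z) ≤ n * ‖v‖ * (2 * D) := by
      refine (le_abs_self _).trans ((abs_dot_le _ _).trans ?_)
      have h3 : ‖y0 - z‖ ≤ 2 * D := by
        calc ‖y0 - z‖ ≤ ‖y0‖ + ‖z‖ := norm_sub_le _ _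
          _ ≤ D + D := add_le_add (hD y0 hy0) (hD z hz)
          _ = 2 * D := by ring
      gcongr
    have h4 : l * (v ⬝ᵥ (y0 - z)) ≤ δ * ‖v‖ := by
      calc l * (v ⬝ᵥ (y0 - z)) ≤ l * (n * ‖v‖ * (2 * D)) := by gcongr
        _ = (l * (2 * n * D)) * ‖v‖ := by ring
        _ ≤ δ * ‖v‖ := by gcongr
    apply Real.exp_le_exp.2
    have := (abs_le.1 (quad_bound hD hL'0 hN' hyK)).2
    linarith
  have hlowI : V * E ≤ IY K N v (fun _ => 1) := by
    have e1 : V * E = ∫ _y in ball p (l * r), E := by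
      rw [setIntegral_const, smul_eq_mul, Measure.real, Measure.addHaar_ball_center]
    rw [e1]
    calc ∫ _y in ball p (l * r), E ≤ ∫ y in ball p (l * r), w y := by
          refine setIntegral_mono_on (integrableOn_const measure_ball_lt_top.ne)
            (hwint.mono_set hsubK) measurableSet_ball hlow
      _ ≤ ∫ y in K, w y := by
          refine setIntegral_mono_set hwint (ae_of_all _ fun y => (Real.exp_pos _).le) ?_
          exact hsubK.eventuallyLE
      _ = IY K N v (fun _ => 1) := by simp [IY, hw]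
  -- conclusion
  have hR : a ≤ b * Real.exp (δ * ‖v‖) := by
    have h1 : a ≤ ‖v‖ * (b * δ) := by
      rwa [div_le_iff₀ (by positivity)] at hv
    have h2 : δ * ‖v‖ + 1 ≤ Real.exp (δ * ‖v‖) := Real.add_one_le_exp _
    calc a ≤ b * (δ * ‖v‖ + 1) := by nlinarith
      _ ≤ b * Real.exp (δ * ‖v‖) := by gcongr
  have hfin : S * (2 * D * Real.exp (v ⬝ᵥ y0 - 2 * δ * ‖v‖ + Cq)) ≤ b * E := by
    have e2 : S * (2 * D * Real.exp (v ⬝ᵥ y0 - 2 * δ * ‖v‖ + Cq))
        = a * Real.exp (-(δ * ‖v‖)) * E := by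
      rw [ha, hE]
      have : v ⬝ᵥ y0 - 2 * δ * ‖v‖ + Cq
          = 2 * Cq + (-(δ * ‖v‖)) + (v ⬝ᵥ y0 - δ * ‖v‖ - Cq) := by ring
      rw [this, Real.exp_add, Real.exp_add]
      ring
    rw [e2]
    have : a * Real.exp (-(δ * ‖v‖)) ≤ b := by
      rw [Real.exp_neg, ← div_eq_mul_inv, div_le_iff₀ (Real.exp_pos _)]
      exact hR
    gcongr
  have : b * E ≤ (η / 2) * IY K N v (fun _ => 1) := by
    calc b * E = (η / 2) * (V * E) := by rw [hb]; ring
      _ ≤ (η / 2) * IY K N v (fun _ => 1) := by gcongr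
  linarith

section moments

variable {K : Set (Fin n → ℝ)} {N : Matrix (Fin n) (Fin n) ℝ} {v : Fin n → ℝ}

lemma wcont (N : Matrix (Fin n) (Fin n) ℝ) (v : Fin n → ℝ) :
    Continuous fun y : Fin n → ℝ => Real.exp (v ⬝ᵥ y - (1 / 2) * (y ⬝ᵥ N *ᵥ y)) := by
  simp only [dotProduct, mulVec]
  fun_prop

lemma IY_int (hK : IsCompact K) {φ : (Fin n → ℝ) → ℝ} (hφ : Continuous φ) :
    IntegrableOn (fun y => φ y * Real.exp (v ⬝ᵥ y - (1 / 2) * (y ⬝ᵥ N *ᵥ y))) K :=
  (hφ.mul (wcont N v)).continuousOn.integrableOn_compact hK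

lemma IY_mono (hK : IsCompact K) {φ ψ : (Fin n → ℝ) → ℝ} (hφ : Continuous φ) (hψ : Continuous ψ)
    (h : ∀ y ∈ K, φ y ≤ ψ y) : IY K N v φ ≤ IY K N v ψ :=
  setIntegral_mono_on (IY_int hK hφ) (IY_int hK hψ) hK.measurableSet
    fun y hy => mul_le_mul_of_nonneg_right (h y hy) (Real.exp_pos _).le

lemma abs_IY_le (φ : (Fin n → ℝ) → ℝ) : |IY K N v φ| ≤ IY K N v (fun y => |φ y|) := by
  unfold IY
  refine (abs_integral_le_integral_abs).trans (le_of_eq ?_)
  congr 1
  ext y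
  rw [abs_mul, abs_of_pos (Real.exp_pos _)]

lemma IY_one_pos (hK : IsCompact K) (hi : (interior K).Nonempty) :
    0 < IY K N v (fun _ => 1) := by
  unfold IY
  have hint : IntegrableOn (fun y : Fin n → ℝ =>
      (1:ℝ) * Real.exp (v ⬝ᵥ y - (1 / 2) * (y ⬝ᵥ N *ᵥ y))) K :=
    IY_int hK continuous_const
  rw [setIntegral_pos_iff_support_of_nonneg_ae
    (ae_of_all _ fun y => by positivity) hint]
  have : Function.support (fun y : Fin n → ℝ =>
      (1:ℝ) * Real.exp (v ⬝ᵥ y - (1 / 2) * (y ⬝ᵥ N *ᵥ y))) = univ := by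
    ext y
    simp [(Real.exp_pos _).ne']
  rw [this, univ_inter]
  exact (isOpen_interior.measure_pos _ hi).trans_le (measure_mono interior_subset)

lemma EY_mono (hK : IsCompact K) (hi : (interior K).Nonempty) {φ ψ : (Fin n → ℝ) → ℝ}
    (hφ : Continuous φ) (hψ : Continuous ψ) (h : ∀ y ∈ K, φ y ≤ ψ y) :
    EY K N v φ ≤ EY K N v ψ :=
  div_le_div_of_nonneg_right (IY_mono hK hφ hψ h) (IY_one_pos hK hi).le

lemma abs_EY_le (hK : IsCompact K) (hi : (interior K).Nonempty) (φ : (Fin n → ℝ) → ℝ) :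
    |EY K N v φ| ≤ EY K N v (fun y => |φ y|) := by
  unfold EY
  rw [abs_div, abs_of_pos (IY_one_pos hK hi)]
  exact div_le_div_of_nonneg_right (abs_IY_le φ) (IY_one_pos hK hi).le

lemma EY_const (hK : IsCompact K) (hi : (interior K).Nonempty) (c : ℝ) :
    EY K N v (fun _ => c) = c := by
  unfold EY
  have : IY K N v (fun _ => c) = c * IY K N v (fun _ => 1) := by
    unfold IY
    rw [← integral_const_mul]
    simp
  rw [this, mul_div_assoc, div_self (IY_one_pos hK hi).ne', mul_one]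

lemma EY_add (hK : IsCompact K) {φ ψ : (Fin n → ℝ) → ℝ} (hφ : Continuous φ) (hψ : Continuous ψ) :
    EY K N v (fun y => φ y + ψ y) = EY K N v φ + EY K N v ψ := by
  unfold EY
  rw [← add_div]
  congr 1
  unfold IY
  rw [← integral_add (IY_int hK hφ) (IY_int hK hψ)]
  congr 1
  ext y
  ring

lemma EY_const_mul (φ : (Fin n → ℝ) → ℝ) (c : ℝ) :
    EY K N v (fun y => c * φ y) = c * EY K N v φ := by
  unfold EY IY
  rw [← mul_div_assoc, ← integral_const_mul]
  simp only [mul_assoc]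

/-- Block (C): all centred second and third moments of `Y` tend to zero as `|v| → ∞`, uniformly
for bounded `N`. -/
theorem moments_small (hK : IsCompact K) (hs : StrictConvex ℝ K) (hi : (interior K).Nonempty)
    (L : ℝ) {η : ℝ} (hη : 0 < η) :
    ∃ R : ℝ, ∀ N : Matrix (Fin n) (Fin n) ℝ, (∀ i j, |N i j| ≤ L) → ∀ v : Fin n → ℝ, R ≤ ‖v‖ →
      (∀ i j, |EY K N v (fun y => (y i - EY K N v (fun z => z i)) *
        (y j - EY K N v (fun z => z j)))| ≤ η) ∧
      (∀ i j k, |EY K N v (fun y => (y i - EY K N v (fun z => z i)) *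
        (y j - EY K N v (fun z => z j)) * (y k - EY K N v (fun z => z k)))| ≤ η) := by
  obtain ⟨D, hDpos, hD⟩ := hK.isBounded.exists_pos_norm_le
  set η' : ℝ := η / (4 * D + 8 * D ^ 2) with hη'
  have hη'0 : 0 < η' := by positivity
  have h2 : 4 * D * η' ≤ η := by
    rw [hη', ← mul_div_assoc, div_le_iff₀ (by positivity)]
    nlinarith [sq_nonneg D]
  have h3 : 8 * D ^ 2 * η' ≤ η := by
    rw [hη', ← mul_div_assoc, div_le_iff₀ (by positivity)]
    nlinarith [sq_nonneg D]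
  obtain ⟨R, hR⟩ := conc hK hs hi L hη'0
  refine ⟨R, fun N hN v hv => ?_⟩
  obtain ⟨y0, hy0, hc⟩ := hR N hN v hv
  have hI1 := IY_one_pos (N := N) (v := v) hK hi
  have hc' : EY K N v (fun y => ‖y - y0‖) ≤ η' := by
    unfold EY
    rwa [div_le_iff₀ hI1]
  set a : Fin n → ℝ := fun i => EY K N v (fun z => z i) with ha
  have hcoord : ∀ i, Continuous fun y : Fin n → ℝ => y i := fun i => continuous_apply i
  have haD : ∀ i, |a i| ≤ D := by
    intro i
    refine (abs_EY_le hK hi _).trans ?_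
    refine (EY_mono hK hi (hcoord i).abs continuous_const (ψ := fun _ => D) fun y hy => ?_).trans
      (EY_const hK hi D).le
    exact (norm_le_pi_norm y i).trans (hD y hy)
  have hay : ∀ i, |a i - y0 i| ≤ η' := by
    intro i
    have e : a i - y0 i = EY K N v (fun y => y i + (- y0 i)) := by
      rw [EY_add hK (hcoord i) continuous_const, EY_const hK hi]
      ring
    rw [e]
    refine (abs_EY_le hK hi _).trans (le_trans ?_ hc')
    refine EY_mono hK hi (by fun_prop) (by fun_prop) fun y _ => ?_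
    have := norm_le_pi_norm (y - y0) i
    simpa [sub_eq_add_neg] using this
  have hone : ∀ i, EY K N v (fun y => |y i - a i|) ≤ 2 * η' := by
    intro i
    have : EY K N v (fun y => |y i - a i|) ≤ EY K N v (fun y => ‖y - y0‖ + η') := by
      refine EY_mono hK hi (by fun_prop) (by fun_prop) fun y _ => ?_
      have h1 := norm_le_pi_norm (y - y0) i
      rw [Pi.sub_apply, Real.norm_eq_abs] at h1
      have h2 := hay i
      rw [abs_sub_comm] at h2
      calc |y i - a i| = |(y i - y0 i) + (y0 i - a i)| := by congr 1; ring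
        _ ≤ |y i - y0 i| + |y0 i - a i| := abs_add_le _ _
        _ ≤ ‖y - y0‖ + η' := add_le_add h1 h2
    rw [EY_add hK (by fun_prop) continuous_const, EY_const hK hi] at this
    linarith
  have hdiff : ∀ i, ∀ y ∈ K, |y i - a i| ≤ 2 * D := by
    intro i y hy
    have h1 : |y i| ≤ D := (norm_le_pi_norm y i).trans (hD y hy)
    calc |y i - a i| ≤ |y i| + |a i| := abs_sub _ _
      _ ≤ D + D := add_le_add h1 (haD i)
      _ = 2 * D := by ring
  refine ⟨fun i j => ?_, fun i j k => ?_⟩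
  · refine (abs_EY_le hK hi _).trans ?_
    refine (EY_mono hK hi (ψ := fun y => 2 * D * |y i - a i|) (by fun_prop) (by fun_prop)
      fun y hy => ?_).trans ?_
    · rw [abs_mul, mul_comm]
      exact mul_le_mul_of_nonneg_right (hdiff j y hy) (abs_nonneg _)
    · rw [EY_const_mul]
      have := hone i
      calc 2 * D * EY K N v (fun y => |y i - a i|) ≤ 2 * D * (2 * η') := by gcongr
        _ = 4 * D * η' := by ring
        _ ≤ η := h2
  · refine (abs_EY_le hK hi _).trans ?_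
    refine (EY_mono hK hi (ψ := fun y => (4 * D ^ 2) * |y i - a i|) (by fun_prop) (by fun_prop)
      fun y hy => ?_).trans ?_
    · rw [abs_mul, abs_mul]
      have h4 := hdiff j y hy
      have h5 := hdiff k y hy
      calc |y i - a i| * |y j - a j| * |y k - a k| ≤ |y i - a i| * (2 * D) * (2 * D) := by gcongr
        _ = (4 * D ^ 2) * |y i - a i| := by ring
    · rw [EY_const_mul]
      have := hone i
      calc 4 * D ^ 2 * EY K N v (fun y => |y i - a i|) ≤ 4 * D ^ 2 * (2 * η') := by gcongr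
        _ = 8 * D ^ 2 * η' := by ring
        _ ≤ η := h3

/-- entries of a positive semidefinite matrix `N ≤ L` are bounded by `L` -/
lemma psd_entry_le {N : Matrix (Fin n) (Fin n) ℝ} {L : ℝ} (hN : N.PosSemidef)
    (hL : (L • (1 : Matrix (Fin n) (Fin n) ℝ) - N).PosSemidef) (i j : Fin n) : |N i j| ≤ L := by
  have hsym : N j i = N i j := by
    have := congrFun (congrFun hN.1 i) j
    simpa [conjTranspose_apply] using this
  have hdiag : ∀ k, N k k ≤ L := by
    intro k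
    have := hL.diag_nonneg (i := k)
    simpa using this
  have h2 : ∀ s : ℝ, 0 ≤ N i i + 2 * s * N i j + s ^ 2 * N j j := by
    intro s
    have := hN.dotProduct_mulVec_nonneg (Pi.single i 1 + Pi.single j s)
    simp only [star_trivial, mulVec_add, add_dotProduct, dotProduct_add, mulVec_single,
      single_dotProduct] at this
    simp only [MulOpposite.op_one, one_smul, col_apply, Pi.smul_apply, MulOpposite.smul_eq_mul_unop,
      MulOpposite.unop_op, one_mul] at this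
    rw [hsym] at this
    nlinarith
  have h3 := h2 1
  have h4 := h2 (-1)
  have h5 := hdiag i
  have h6 := hdiag j
  rw [abs_le]
  constructor <;> linarith

end moments

end Vale.Agent.P254.R304
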