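import Mathlib

/-!
P254, block (R), part 1: strictly convex compact inner approximations of a closed convex set with
nonempty interior.
-/

open MeasureTheory Set Matrix Filter Topology Metric

namespace Vale.Agent.P254.R304

variable {n : ℕ}

lemma dot_nonneg (v : Fin n → ℝ) : 0 ≤ v ⬝ᵥ v := by
  unfold dotProduct
  exact Finset.sum_nonneg fun i _ => mul_self_nonneg _

lemma norm_sq_le_dot' (v : Fin n → ℝ) : ‖v‖ ^ 2 ≤ v ⬝ᵥ v := by
  have h1 : ‖v‖ ≤ Real.sqrt (v ⬝ᵥ v) := by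
    rw [pi_norm_le_iff_of_nonneg (Real.sqrt_nonneg _)]
    intro i
    apply Real.le_sqrt_of_sq_le
    rw [Real.norm_eq_abs, sq_abs]
    unfold dotProduct
    rw [sq]
    exact Finset.single_le_sum (f := fun i => v i * v i) (fun i _ => mul_self_nonneg _)
      (Finset.mem_univ i)
  calc ‖v‖ ^ 2 ≤ Real.sqrt (v ⬝ᵥ v) ^ 2 := by gcongr
    _ = v ⬝ᵥ v := Real.sq_sqrt (dot_nonneg v)

lemma dot_pos {v : Fin n → ℝ} (hv : v ≠ 0) : 0 < v ⬝ᵥ v := by
  have := norm_sq_le_dot' v
  have h2 : 0 < ‖v‖ := norm_pos_iff.2 hv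
  have : 0 < ‖v‖ ^ 2 := by positivity
  linarith

lemma dot_le_norm_sq (v : Fin n → ℝ) : v ⬝ᵥ v ≤ n * ‖v‖ ^ 2 := by
  unfold dotProduct
  calc ∑ i, v i * v i ≤ ∑ _i : Fin n, ‖v‖ ^ 2 := by
        refine Finset.sum_le_sum fun i _ => ?_
        have := norm_le_pi_norm v i
        rw [Real.norm_eq_abs] at this
        rw [← sq, ← sq_abs]
        gcongr
    _ = n * ‖v‖ ^ 2 := by simp

lemma continuous_dot_self : Continuous fun v : Fin n → ℝ => v ⬝ᵥ v := by
  unfold dotProduct; fun_prop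

/-- the approximating function -/
noncomputable def FF (C : Set (Fin n → ℝ)) (x0 : Fin n → ℝ) (δ : ℝ) (x : Fin n → ℝ) : ℝ :=
  gauge ((fun x => x + x0) ⁻¹' C) (x - x0) ^ 2 + δ * ((x - x0) ⬝ᵥ (x - x0))

theorem exists_strictConvex_approx {C : Set (Fin n → ℝ)} (hC : IsClosed C) (hconv : Convex ℝ C)
    (hi : (interior C).Nonempty) :
    ∃ K : ℕ → Set (Fin n → ℝ), (∀ k, IsCompact (K k)) ∧ (∀ k, StrictConvex ℝ (K k)) ∧
      (∀ k, (interior (K k)).Nonempty) ∧ (∀ k, K k ⊆ C) ∧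
      ∀ x ∈ interior C, ∃ r > 0, ∀ᶠ k in atTop, closedBall x r ⊆ K k := by
  obtain ⟨x0, hx0⟩ := hi
  set C0 : Set (Fin n → ℝ) := (fun x => x + x0) ⁻¹' C with hC0
  have hC0conv : Convex ℝ C0 := hconv.translate_preimage_left x0
  have hC0n : C0 ∈ 𝓝 (0 : Fin n → ℝ) := by
    apply (continuous_id.add continuous_const).continuousAt.preimage_mem_nhds
    simpa using mem_interior_iff_mem_nhds.1 hx0
  have hC0cl : IsClosed C0 := hC.preimage (by fun_prop)
  have habs : Absorbent ℝ C0 := absorbent_nhds_zero hC0n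
  have hgc : Continuous (gauge C0) := continuous_gauge hC0conv hC0n
  have hFc : ∀ δ, Continuous (FF C x0 δ) := by
    intro δ
    unfold FF
    refine ((hgc.comp (continuous_id.sub continuous_const)).pow 2).add
      (continuous_const.mul (continuous_dot_self.comp (continuous_id.sub continuous_const)))
  have hsc : ∀ δ > 0, ∀ x y, x ≠ y → FF C x0 δ x ≤ 1 → FF C x0 δ y ≤ 1 → ∀ a b : ℝ, 0 < a → 0 < b →
      a + b = 1 → FF C x0 δ (a • x + b • y) < 1 := by
    intro δ hδ x y hxy hx hy a b ha hb hab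
    set u := x - x0 with hu
    set w := y - x0 with hw
    have e1 : a • x + b • y - x0 = a • u + b • w := by
      have : x0 = a • x0 + b • x0 := by rw [← add_smul, hab, one_smul]
      rw [hu, hw, smul_sub, smul_sub]
      nth_rewrite 1 [this]
      abel
    have h1 : gauge C0 (a • u + b • w) ≤ a * gauge C0 u + b * gauge C0 w := by
      refine (gauge_add_le hC0conv habs _ _).trans ?_
      rw [gauge_smul_of_nonneg ha.le, gauge_smul_of_nonneg hb.le, smul_eq_mul, smul_eq_mul]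
    have h2 : gauge C0 (a • u + b • w) ^ 2 ≤ a * gauge C0 u ^ 2 + b * gauge C0 w ^ 2 := by
      have h0 : 0 ≤ gauge C0 (a • u + b • w) := gauge_nonneg _
      have hb' : b = 1 - a := by linarith
      calc gauge C0 (a • u + b • w) ^ 2 ≤ (a * gauge C0 u + b * gauge C0 w) ^ 2 := by gcongr
        _ = a * gauge C0 u ^ 2 + b * gauge C0 w ^ 2 - a * b * (gauge C0 u - gauge C0 w) ^ 2 := by
            rw [hb']; ring
        _ ≤ a * gauge C0 u ^ 2 + b * gauge C0 w ^ 2 := by
            have : 0 ≤ a * b * (gauge C0 u - gauge C0 w) ^ 2 := by positivity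
            linarith
    have h3 : (a • u + b • w) ⬝ᵥ (a • u + b • w) =
        a * (u ⬝ᵥ u) + b * (w ⬝ᵥ w) - a * b * ((u - w) ⬝ᵥ (u - w)) := by
      have hb' : b = 1 - a := by linarith
      simp only [dotProduct_add, add_dotProduct, dotProduct_smul, smul_dotProduct, smul_eq_mul,
        dotProduct_sub, sub_dotProduct]
      rw [dotProduct_comm w u, hb']
      ring
    have h4 : 0 < (u - w) ⬝ᵥ (u - w) := by
      apply dot_pos
      rw [hu, hw]
      simpa [sub_eq_zero] using hxy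
    unfold FF at hx hy ⊢
    rw [← hC0, ← hu] at hx
    rw [← hC0, ← hw] at hy
    rw [← hC0, e1, h3]
    have h5 : 0 < δ * (a * b * ((u - w) ⬝ᵥ (u - w))) := by positivity
    nlinarith [mul_le_mul_of_nonneg_left hx ha.le, mul_le_mul_of_nonneg_left hy hb.le]
  set K : ℕ → Set (Fin n → ℝ) := fun k => {x | FF C x0 (1 / ((k:ℝ) + 1)) x ≤ 1} with hK
  have hKcl : ∀ k, IsClosed (K k) := fun k => isClosed_le (hFc _) continuous_const
  have hpos : ∀ k : ℕ, (0:ℝ) < 1 / ((k:ℝ) + 1) := fun k => by positivity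
  have hopen : ∀ δ, IsOpen {x | FF C x0 δ x < 1} := fun δ => isOpen_lt (hFc δ) continuous_const
  have hint : ∀ k : ℕ, {x | FF C x0 (1 / ((k:ℝ) + 1)) x < 1} ⊆ interior (K k) := by
    intro k
    refine interior_maximal ?_ (hopen _)
    intro x hx
    have hx' : FF C x0 (1 / ((k:ℝ) + 1)) x < 1 := hx
    exact hx'.le
  refine ⟨K, fun k => ?_, fun k => ?_, fun k => ?_, fun k => ?_, fun x hx => ?_⟩
  · -- compact
    apply Metric.isCompact_of_isClosed_isBounded (hKcl k)
    rw [Metric.isBounded_iff_subset_closedBall x0]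
    refine ⟨(k:ℝ) + 1, fun x hx => ?_⟩
    rw [mem_closedBall, dist_eq_norm]
    have h1 : FF C x0 (1 / ((k:ℝ) + 1)) x ≤ 1 := hx
    unfold FF at h1
    have h2 : 1 / ((k:ℝ) + 1) * ((x - x0) ⬝ᵥ (x - x0)) ≤ 1 := by
      have := sq_nonneg (gauge ((fun x => x + x0) ⁻¹' C) (x - x0))
      linarith
    rw [div_mul_eq_mul_div, one_mul, div_le_iff₀ (by positivity), one_mul] at h2
    have h3 := norm_sq_le_dot' (x - x0)
    have hk : (0:ℝ) ≤ k := Nat.cast_nonneg k
    have h4 : ‖x - x0‖ ^ 2 ≤ ((k:ℝ) + 1) ^ 2 := by nlinarith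
    exact abs_le_of_sq_le_sq' h4 (by positivity) |>.2
  · intro x hx y hy hxy a b ha hb hab
    exact hint k (hsc _ (hpos k) x y hxy hx hy a b ha hb hab)
  · refine ⟨x0, hint k ?_⟩
    simp [FF]
  · intro x hx
    have h1 : FF C x0 (1 / ((k:ℝ) + 1)) x ≤ 1 := hx
    unfold FF at h1
    rw [← hC0] at h1
    have h2 : 0 ≤ 1 / ((k:ℝ) + 1) * ((x - x0) ⬝ᵥ (x - x0)) :=
      mul_nonneg (hpos k).le (dot_nonneg _)
    have h3 : gauge C0 (x - x0) ≤ 1 := by
      have h0 : 0 ≤ gauge C0 (x - x0) := gauge_nonneg _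
      nlinarith
    rw [gauge_le_one_iff_mem_closure hC0conv hC0n, hC0cl.closure_eq] at h3
    simpa [hC0] using h3
  · -- exhaustion
    have hxC0 : x - x0 ∈ interior C0 := by
      rw [mem_interior_iff_mem_nhds]
      apply (continuous_id.add continuous_const).continuousAt.preimage_mem_nhds
      simpa using mem_interior_iff_mem_nhds.1 hx
    have h1 : gauge C0 (x - x0) < 1 := (gauge_lt_one_iff_mem_interior hC0conv hC0n).2 hxC0
    obtain ⟨ρ, hρ1, hρ2⟩ := exists_between h1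
    have hρ0 : 0 ≤ ρ := (gauge_nonneg _).trans hρ1.le
    have hcont : Continuous fun y => gauge C0 (y - x0) :=
      hgc.comp (continuous_id.sub continuous_const)
    have hev : ∀ᶠ y in 𝓝 x, gauge C0 (y - x0) < ρ := hcont.continuousAt.eventually_lt_const hρ1
    obtain ⟨r, hr, hball⟩ := Metric.eventually_nhds_iff_ball.1 hev
    refine ⟨r / 2, by positivity, ?_⟩
    set M : ℝ := n * (‖x - x0‖ + r) ^ 2 with hM
    have hlim : Tendsto (fun k : ℕ => ρ ^ 2 + 1 / ((k:ℝ) + 1) * M) atTop (𝓝 (ρ ^ 2 + 0 * M)) := by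
      refine tendsto_const_nhds.add (Tendsto.mul_const _ ?_)
      exact tendsto_one_div_add_atTop_nhds_zero_nat
    have hlt : ρ ^ 2 + 0 * M < 1 := by nlinarith
    filter_upwards [hlim.eventually_lt_const hlt] with k hk
    intro y hy
    rw [mem_closedBall, dist_eq_norm] at hy
    have hy1 : gauge C0 (y - x0) < ρ := by
      apply hball
      rw [mem_ball, dist_eq_norm]
      linarith
    have hy2 : (y - x0) ⬝ᵥ (y - x0) ≤ M := by
      refine (dot_le_norm_sq _).trans ?_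
      have : ‖y - x0‖ ≤ ‖x - x0‖ + r := by
        calc ‖y - x0‖ = ‖(x - x0) + (y - x)‖ := by congr 1; abel
          _ ≤ ‖x - x0‖ + ‖y - x‖ := norm_add_le _ _
          _ ≤ ‖x - x0‖ + r := by linarith
      rw [hM]
      gcongr
    change FF C x0 (1 / ((k:ℝ) + 1)) y ≤ 1
    unfold FF
    rw [← hC0]
    have h0 : 0 ≤ gauge C0 (y - x0) := gauge_nonneg _
    have h5 : gauge C0 (y - x0) ^ 2 ≤ ρ ^ 2 := by gcongr
    have h6 : 1 / ((k:ℝ) + 1) * ((y - x0) ⬝ᵥ (y - x0)) ≤ 1 / ((k:ℝ) + 1) * M := by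
      gcongr
    linarith

end Vale.Agent.P254.R304
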