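import Vale.Agent.P254.R304.Cone
import Vale.Agent.P254.Frame829.Ent

/-!
P254: bridge between the functional `DD` of block (R) and the frame of `Frame829`.
-/

open MeasureTheory Set Matrix Filter Topology Metric

namespace Vale.Agent.P254.R304

variable {n : ℕ}

lemma tilt_eq_tl (B : Matrix (Fin n) (Fin n) ℝ) (c x : Fin n → ℝ) : tilt B c x = Fr.tl B c x := rfl

lemma Ef_eq_Ev (w : (Fin n → ℝ) → ℝ) (B : Matrix (Fin n) (Fin n) ℝ) (c : Fin n → ℝ)
    (φ : (Fin n → ℝ) → ℝ) :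
    Ef (fun x => tilt B c x * w x) φ = Fr.Ev w B c φ := by
  unfold Ef Fr.Ev Fr.I
  simp only [one_mul]
  rfl

lemma covF_eq_AF (w : (Fin n → ℝ) → ℝ) (B : Matrix (Fin n) (Fin n) ℝ) (c : Fin n → ℝ) :
    covF (fun x => tilt B c x * w x) = Fr.AF w B c := by
  unfold covF Fr.AF
  simp only [Ef_eq_Ev]
  rfl

lemma entF_eq_EntF {w : (Fin n → ℝ) → ℝ} (hw : ∀ x, 0 < w x) (B : Matrix (Fin n) (Fin n) ℝ)
    (c : Fin n → ℝ) :
    entF (fun x => tilt B c x * w x) = Fr.EntF w B c := by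
  unfold entF Fr.EntF Fr.Ev Fr.I
  have e1 : ∀ x, tilt B c x * w x * Real.log (tilt B c x * w x) =
      -(Fr.ps w B c x * (Fr.tl B c x * w x)) := by
    intro x
    rw [Real.log_mul (tilt_pos _ _ _).ne' (hw x).ne']
    unfold Fr.ps
    rw [← tilt_eq_tl]
    have : Real.log (tilt B c x) = c ⬝ᵥ x - (1 / 2) * (x ⬝ᵥ B *ᵥ x) := by
      unfold tilt; rw [Real.log_exp]
    rw [this]
    ring
  simp only [e1, one_mul, integral_neg, neg_div, sub_neg_eq_add]
  rfl

/-- `DD` in the notation of the frame -/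
lemma DD_eq {w : (Fin n → ℝ) → ℝ} (hw : ∀ x, 0 < w x) (B : Matrix (Fin n) (Fin n) ℝ)
    (c : Fin n → ℝ) :
    DD (fun x => tilt B c x * w x) =
      Fr.EntF w B c - 1 / 2 * Real.log (Fr.AF w B c).det - n := by
  unfold DD
  rw [entF_eq_EntF hw, covF_eq_AF]

lemma nice_pos {K : Set (Fin n → ℝ)} (hKi : (interior K).Nonempty) {ε : ℝ} (hε : 0 < ε) (m : ℝ)
    (x : Fin n → ℝ) : 0 < nice K ε m x := by
  unfold nice qq
  refine mul_pos ?_ (Real.exp_pos _)
  rw [setIntegral_pos_iff_support_of_nonneg_ae (ae_of_all _ fun y => (Real.exp_pos _).le)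
    (gauss_integrable' hε x).integrableOn]
  have : Function.support (fun y : Fin n → ℝ =>
      Real.exp (-((x - y) ⬝ᵥ (x - y)) / (2 * ε))) = univ := by
    ext y
    simp [(Real.exp_pos _).ne']
  rw [this, univ_inter]
  exact (isOpen_interior.measure_pos _ hKi).trans_le (measure_mono interior_subset)

/-- what the minimum principle gives for the nice measures, in the notation of the frame -/
def NiceFr (n : ℕ) : Prop :=
  ∀ (K : Set (Fin n → ℝ)), IsCompact K → StrictConvex ℝ K → (interior K).Nonempty →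
    ∀ ε m : ℝ, 0 < ε → 0 < m → ∀ (B : Matrix (Fin n) (Fin n) ℝ), B.PosDef → ∀ c : Fin n → ℝ,
      (n : ℝ) + 1 / 2 * Real.log (Fr.AF (nice K ε m) B c).det ≤ Fr.EntF (nice K ε m) B c

theorem NiceFr.niceDD (h : NiceFr n) : NiceDD n := by
  intro K h1 h2 h3 ε m hε hm B hB c
  rw [DD_eq (nice_pos h3 hε m)]
  have := h K h1 h2 h3 ε m hε hm B hB c
  linarith

end Vale.Agent.P254.R304
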