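import Vale.Agent.P254.R304.Limit
import Vale.Agent.P254.Defs

/-!
P254, block (R), part 7: the cone over a convex body.
-/

open MeasureTheory Set Matrix Filter Topology Metric

namespace Vale.Agent.P254.R304

variable {n : ℕ}

/-- the cone `{(t, t y) : t ≥ 0, y ∈ K}` -/
def cone (K : Set (Fin n → ℝ)) : Set (Fin (n + 1) → ℝ) :=
  {z | 0 ≤ z 0 ∧ ∃ y ∈ K, Fin.tail z = z 0 • y}

/-- the linear functional `-z₀` -/
def mc (n : ℕ) : Fin (n + 1) → ℝ := Fin.cons (-1) 0

lemma mc_dot (z : Fin (n + 1) → ℝ) : mc n ⬝ᵥ z = -z 0 := by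
  unfold mc dotProduct
  rw [Fin.sum_univ_succ]
  simp

lemma continuous_tail : Continuous (Fin.tail : (Fin (n + 1) → ℝ) → (Fin n → ℝ)) := by
  unfold Fin.tail
  fun_prop

lemma isClosed_cone {K : Set (Fin n → ℝ)} (hK : IsCompact K) : IsClosed (cone K) := by
  have : CompactSpace K := isCompact_iff_compactSpace.1 hK
  have hS : IsClosed {p : (Fin (n + 1) → ℝ) × K | 0 ≤ p.1 0 ∧
      Fin.tail p.1 = p.1 0 • (p.2 : Fin n → ℝ)} := by
    apply IsClosed.inter
    · have h1 : Continuous fun p : (Fin (n + 1) → ℝ) × K => p.1 0 :=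
        (continuous_apply 0).comp continuous_fst
      exact isClosed_le continuous_const h1
    · refine isClosed_eq (continuous_tail.comp continuous_fst) ?_
      exact ((continuous_apply 0).comp continuous_fst).smul
        (continuous_subtype_val.comp continuous_snd)
  have := isClosedMap_fst_of_compactSpace _ hS
  convert this using 1
  ext z
  constructor
  · rintro ⟨h0, y, hy, h⟩
    exact ⟨(z, ⟨y, hy⟩), ⟨h0, h⟩, rfl⟩
  · rintro ⟨⟨z', y⟩, ⟨h0, h⟩, rfl⟩
    exact ⟨h0, y, y.2, h⟩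

lemma convex_cone {K : Set (Fin n → ℝ)} (hK : Convex ℝ K) : Convex ℝ (cone K) := by
  rintro z ⟨hz0, y, hy, hz⟩ z' ⟨hz0', y', hy', hz'⟩ a b ha hb hab
  have h0 : 0 ≤ a * z 0 := mul_nonneg ha hz0
  have h0' : 0 ≤ b * z' 0 := mul_nonneg hb hz0'
  refine ⟨by simp only [Pi.add_apply, Pi.smul_apply, smul_eq_mul]; linarith, ?_⟩
  have ht : Fin.tail (a • z + b • z') = (a * z 0) • y + (b * z' 0) • y' := by
    have : Fin.tail (a • z + b • z') = a • Fin.tail z + b • Fin.tail z' := by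
      ext i; simp [Fin.tail]
    rw [this, hz, hz', smul_smul, smul_smul]
  rcases eq_or_lt_of_le (add_nonneg h0 h0') with h | h
  · have e1 : a * z 0 = 0 := by linarith
    have e2 : b * z' 0 = 0 := by linarith
    refine ⟨y, hy, ?_⟩
    rw [ht, e1, e2]
    simp [e1, e2]
  · refine ⟨((a * z 0) / (a * z 0 + b * z' 0)) • y + ((b * z' 0) / (a * z 0 + b * z' 0)) • y',
      hK hy hy' (by positivity) (by positivity) (by field_simp), ?_⟩
    rw [ht]
    simp only [Pi.add_apply, Pi.smul_apply, smul_eq_mul, smul_add, smul_smul]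
    congr 2 <;> field_simp

lemma cone_interior {K : Set (Fin n → ℝ)} (hi : (interior K).Nonempty) :
    (interior (cone K)).Nonempty := by
  obtain ⟨y, hy⟩ := hi
  have hopen : IsOpen ({z : Fin (n + 1) → ℝ | 0 < z 0} ∩
      (fun z : Fin (n + 1) → ℝ => (z 0)⁻¹ • Fin.tail z) ⁻¹' (interior K)) := by
    apply ContinuousOn.isOpen_inter_preimage _ _ isOpen_interior
    · have h1 : ContinuousOn (fun z : Fin (n + 1) → ℝ => (z 0)⁻¹) {z | 0 < z 0} :=
        (continuous_apply (0 : Fin (n + 1))).continuousOn.inv₀ fun z hz => ne_of_gt hz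
      exact h1.smul continuous_tail.continuousOn
    · exact isOpen_lt continuous_const (by fun_prop)
  refine ⟨Fin.cons 1 y, mem_interior.2 ⟨_, ?_, hopen, ?_⟩⟩
  · rintro z ⟨hz0, hz⟩
    have hz0' : 0 < z 0 := hz0
    refine ⟨hz0'.le, _, interior_subset hz, ?_⟩
    rw [smul_smul, mul_inv_cancel₀ hz0'.ne', one_smul]
  · refine ⟨by simp, ?_⟩
    simpa [Fin.tail] using hy

lemma cone_decay {K : Set (Fin n → ℝ)} (hK : IsCompact K) :
    ∃ a : ℝ, 0 < a ∧ ∀ z ∈ cone K, mc n ⬝ᵥ z ≤ 0 - a * ‖z‖ := by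
  obtain ⟨D, hD0, hD⟩ := hK.isBounded.exists_pos_norm_le
  refine ⟨(1 + D)⁻¹, by positivity, ?_⟩
  rintro z ⟨hz0, y, hy, hz⟩
  rw [mc_dot]
  have h1 : ‖z‖ ≤ (1 + D) * z 0 := by
    rw [pi_norm_le_iff_of_nonneg (by positivity)]
    intro i
    refine Fin.cases ?_ (fun j => ?_) i
    · rw [Real.norm_eq_abs, abs_of_nonneg hz0]
      nlinarith
    · have e : z j.succ = z 0 * y j := by
        have := congrFun hz j
        simpa [Fin.tail] using this
      rw [e, Real.norm_eq_abs, abs_mul, abs_of_nonneg hz0]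
      have h2 : |y j| ≤ D := (norm_le_pi_norm y j).trans (hD y hy)
      calc z 0 * |y j| ≤ z 0 * D := by gcongr
        _ ≤ (1 + D) * z 0 := by nlinarith
  have h2 : (1 + D)⁻¹ * ‖z‖ ≤ z 0 := by
    rw [inv_mul_le_iff₀ (by positivity)]
    exact h1
  linarith

/-- density of the cone measure -/
noncomputable def coneDens (K : Set (Fin n → ℝ)) : (Fin (n + 1) → ℝ) → ℝ :=
  (cone K).indicator fun z => Real.exp (-z 0)

lemma coneDens_eq (K : Set (Fin n → ℝ)) : coneDens K = limDens 0 (mc n) (cone K) := by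
  unfold coneDens limDens
  congr 1
  ext z
  unfold tilt
  rw [mc_dot]
  simp

/-- `D ≥ 0` for the cone measure of a convex body. -/
theorem DD_coneDens_nonneg (hN : NiceDD (n + 1)) {K : Set (Fin n → ℝ)} (hK : IsConvexBody K) :
    0 ≤ DD (coneDens K) := by
  obtain ⟨a, ha, hdec⟩ := cone_decay hK.2.1
  rw [coneDens_eq]
  exact DD_limDens_nonneg hN Matrix.PosSemidef.zero (isClosed_cone hK.2.1) (convex_cone hK.1)
    (cone_interior hK.2.2) ha hdec

lemma good_coneDens {K : Set (Fin n → ℝ)} (hK : IsConvexBody K) :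
    ∃ M a : ℝ, Good (coneDens K) M a := by
  obtain ⟨a, ha, hdec⟩ := cone_decay hK.2.1
  rw [coneDens_eq]
  exact ⟨_, a, good_limDens Matrix.PosSemidef.zero (isClosed_cone hK.2.1)
    (cone_interior hK.2.2) ha hdec⟩

end Vale.Agent.P254.R304
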