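import Vale.Agent.P254.R304.Gauss

/-!
P254, block (R), part 3: dominated convergence of moments and entropies.
-/

open MeasureTheory Set Matrix Filter Topology Metric

namespace Vale.Agent.P254.R304

variable {n : ℕ}

/-- polynomial times exponential is integrable -/
lemma integrable_poly_exp (n : ℕ) {a : ℝ} (ha : 0 < a) (N : ℕ) :
    Integrable fun x : Fin n → ℝ => (1 + ‖x‖) ^ N * Real.exp (-(a * ‖x‖)) := by
  have h1 : Integrable fun x : Fin n → ℝ => (1 + ‖x‖) ^ (-((n:ℝ) + 1)) := by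
    apply integrable_one_add_norm
    rw [Module.finrank_fin_fun]
    linarith
  -- (1+s)^(N+n+1) e^{-a s} bounded
  have h2 : ∃ M : ℝ, 0 ≤ M ∧ ∀ s : ℝ, 0 ≤ s → (1 + s) ^ (N + n + 1) * Real.exp (-(a * s)) ≤ M := by
    refine ⟨((N + n + 1).factorial) * (a⁻¹) ^ (N + n + 1) * Real.exp a, by positivity,
      fun s hs => ?_⟩
    have h3 : (a * (1 + s)) ^ (N + n + 1) / (N + n + 1).factorial ≤ Real.exp (a * (1 + s)) :=
      Real.pow_div_factorial_le_exp _ (by positivity) _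
    rw [div_le_iff₀ (by positivity), mul_pow] at h3
    have h4 : (1 + s) ^ (N + n + 1) ≤
        ((N + n + 1).factorial) * (a⁻¹) ^ (N + n + 1) * Real.exp (a * (1 + s)) := by
      have h5 : 0 < a ^ (N + n + 1) := by positivity
      rw [← mul_le_mul_iff_right₀ h5]
      calc a ^ (N + n + 1) * (1 + s) ^ (N + n + 1) ≤
            Real.exp (a * (1 + s)) * (N + n + 1).factorial := h3
        _ = a ^ (N + n + 1) * (((N + n + 1).factorial) * (a⁻¹) ^ (N + n + 1) *
            Real.exp (a * (1 + s))) := by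
            rw [inv_pow]
            field_simp
    calc (1 + s) ^ (N + n + 1) * Real.exp (-(a * s)) ≤
          ((N + n + 1).factorial) * (a⁻¹) ^ (N + n + 1) * Real.exp (a * (1 + s)) *
            Real.exp (-(a * s)) := by gcongr
      _ = ((N + n + 1).factorial) * (a⁻¹) ^ (N + n + 1) * Real.exp a := by
          rw [mul_assoc, ← Real.exp_add]
          congr 2
          ring
  obtain ⟨M, hM0, hM⟩ := h2
  refine (h1.const_mul M).mono' (by fun_prop) (ae_of_all _ fun x => ?_)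
  have hx : 0 ≤ ‖x‖ := norm_nonneg x
  have hx1 : 0 < 1 + ‖x‖ := by positivity
  rw [Real.norm_eq_abs, abs_of_nonneg (by positivity)]
  have h3 := hM ‖x‖ hx
  have h4 : (1 + ‖x‖) ^ (-((n:ℝ) + 1)) = ((1 + ‖x‖) ^ (n + 1))⁻¹ := by
    rw [Real.rpow_neg hx1.le]
    congr 1
    have : (n:ℝ) + 1 = ((n + 1 : ℕ) : ℝ) := by push_cast; ring
    rw [this, Real.rpow_natCast]
  rw [h4, ← div_eq_mul_inv, le_div_iff₀ (by positivity)]
  calc (1 + ‖x‖) ^ N * Real.exp (-(a * ‖x‖)) * (1 + ‖x‖) ^ (n + 1)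
      = (1 + ‖x‖) ^ (N + n + 1) * Real.exp (-(a * ‖x‖)) := by ring
    _ ≤ M := h3

/-- `|t log t| ≤ 2 (M+1) √t` for `0 ≤ t ≤ M`. -/
lemma abs_mul_log_le {t M : ℝ} (ht : 0 ≤ t) (hM : t ≤ M) :
    |t * Real.log t| ≤ 2 * (M + 1) * Real.sqrt t := by
  rcases eq_or_lt_of_le ht with rfl | ht
  · simp
  have hs : 0 < Real.sqrt t := Real.sqrt_pos.2 ht
  have hsq : Real.sqrt t * Real.sqrt t = t := Real.mul_self_sqrt ht.le
  have e1 : Real.log t = 2 * Real.log (Real.sqrt t) := by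
    rw [Real.log_sqrt ht.le]; ring
  have h1 : Real.log (Real.sqrt t) ≤ Real.sqrt t := by
    have := Real.log_le_sub_one_of_pos hs
    linarith
  have h2 : -Real.log (Real.sqrt t) ≤ (Real.sqrt t)⁻¹ := by
    rw [← Real.log_inv]
    have := Real.log_le_sub_one_of_pos (inv_pos.2 hs)
    linarith
  have h3 : |Real.log (Real.sqrt t)| ≤ Real.sqrt t + (Real.sqrt t)⁻¹ := by
    have := inv_pos.2 hs
    rw [abs_le]
    constructor <;> linarith
  rw [abs_mul, abs_of_pos ht, e1, abs_mul, abs_of_pos (by norm_num : (0:ℝ) < 2)]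
  calc t * (2 * |Real.log (Real.sqrt t)|) ≤ t * (2 * (Real.sqrt t + (Real.sqrt t)⁻¹)) := by gcongr
    _ = 2 * (t + 1) * Real.sqrt t := by
        nth_rewrite 1 [← hsq]
        have : Real.sqrt t * Real.sqrt t * (2 * (Real.sqrt t + (Real.sqrt t)⁻¹))
            = 2 * (Real.sqrt t * Real.sqrt t * Real.sqrt t + Real.sqrt t) := by
          field_simp
        rw [this, hsq]
        ring
    _ ≤ 2 * (M + 1) * Real.sqrt t := by gcongr

/-- hypotheses of the dominated convergence argument -/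
structure Dom (F : ℕ → (Fin n → ℝ) → ℝ) (G : (Fin n → ℝ) → ℝ) (M a : ℝ) : Prop where
  ha : 0 < a
  hM : 0 ≤ M
  meas : ∀ k, AEStronglyMeasurable (F k) volume
  nn : ∀ k x, 0 ≤ F k x
  le : ∀ k x, F k x ≤ M * Real.exp (-(a * ‖x‖))
  lim : ∀ᵐ x, Tendsto (fun k => F k x) atTop (𝓝 (G x))

/-- polynomial growth -/
def PolyGrowth (p : (Fin n → ℝ) → ℝ) : Prop :=
  AEStronglyMeasurable p volume ∧ ∃ (A : ℝ) (N : ℕ), ∀ x, |p x| ≤ A * (1 + ‖x‖) ^ N

variable {F : ℕ → (Fin n → ℝ) → ℝ} {G : (Fin n → ℝ) → ℝ} {M a : ℝ}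

lemma poly_bound_integrable (a M : ℝ) (ha : 0 < a) {p : (Fin n → ℝ) → ℝ} {f : (Fin n → ℝ) → ℝ}
    (hp : PolyGrowth p) (hf : AEStronglyMeasurable f volume) (h0 : ∀ x, 0 ≤ f x)
    (hle : ∀ x, f x ≤ M * Real.exp (-(a * ‖x‖))) : Integrable fun x => p x * f x := by
  obtain ⟨hpm, A, N, hA⟩ := hp
  refine ((integrable_poly_exp n ha N).const_mul (A * M)).mono' (hpm.mul hf)
    (ae_of_all _ fun x => ?_)
  rw [Real.norm_eq_abs, abs_mul, abs_of_nonneg (h0 x)]
  have h2 : 0 ≤ A * (1 + ‖x‖) ^ N := (abs_nonneg _).trans (hA x)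
  calc |p x| * f x ≤ A * (1 + ‖x‖) ^ N * (M * Real.exp (-(a * ‖x‖))) :=
        mul_le_mul (hA x) (hle x) (h0 x) h2
    _ = A * M * ((1 + ‖x‖) ^ N * Real.exp (-(a * ‖x‖))) := by ring

theorem Dom.tendsto_moment (h : Dom F G M a) {p : (Fin n → ℝ) → ℝ} (hp : PolyGrowth p) :
    Tendsto (fun k => ∫ x, p x * F k x) atTop (𝓝 (∫ x, p x * G x)) := by
  obtain ⟨hpm, A, N, hA⟩ := hp
  refine tendsto_integral_of_dominated_convergence
    (fun x => A * M * ((1 + ‖x‖) ^ N * Real.exp (-(a * ‖x‖))))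
    (fun k => hpm.mul (h.meas k)) ((integrable_poly_exp n h.ha N).const_mul (A * M))
    (fun k => ae_of_all _ fun x => ?_) ?_
  · rw [Real.norm_eq_abs, abs_mul, abs_of_nonneg (h.nn k x)]
    have h2 : 0 ≤ A * (1 + ‖x‖) ^ N := (abs_nonneg _).trans (hA x)
    calc |p x| * F k x ≤ A * (1 + ‖x‖) ^ N * (M * Real.exp (-(a * ‖x‖))) :=
          mul_le_mul (hA x) (h.le k x) (h.nn k x) h2
      _ = A * M * ((1 + ‖x‖) ^ N * Real.exp (-(a * ‖x‖))) := by ring
  · filter_upwards [h.lim] with x hx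
    exact hx.const_mul _

lemma sqrt_bound {t : ℝ} (x : Fin n → ℝ) (hM : 0 ≤ M) (hle : t ≤ M * Real.exp (-(a * ‖x‖))) :
    Real.sqrt t ≤ Real.sqrt M * Real.exp (-(a / 2 * ‖x‖)) := by
  calc Real.sqrt t ≤ Real.sqrt (M * Real.exp (-(a * ‖x‖))) := Real.sqrt_le_sqrt hle
    _ = Real.sqrt M * Real.exp (-(a / 2 * ‖x‖)) := by
        rw [Real.sqrt_mul hM]
        congr 1
        rw [show -(a * ‖x‖) = -(a / 2 * ‖x‖) + -(a / 2 * ‖x‖) by ring, Real.exp_add,
          Real.sqrt_mul_self (Real.exp_pos _).le]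

lemma log_bound {t : ℝ} (x : Fin n → ℝ) (ha : 0 < a) (hM : 0 ≤ M) (h0 : 0 ≤ t)
    (hle : t ≤ M * Real.exp (-(a * ‖x‖))) :
    |t * Real.log t| ≤ 2 * (M + 1) * (Real.sqrt M * Real.exp (-(a / 2 * ‖x‖))) := by
  have h1 : t ≤ M := by
    refine hle.trans ?_
    have : Real.exp (-(a * ‖x‖)) ≤ 1 := by
      apply Real.exp_le_one_iff.2
      have : 0 ≤ a * ‖x‖ := by positivity
      linarith
    calc M * Real.exp (-(a * ‖x‖)) ≤ M * 1 := by gcongr
      _ = M := mul_one _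
  refine (abs_mul_log_le h0 h1).trans ?_
  have := sqrt_bound x hM hle
  gcongr

lemma ent_integrable (a M : ℝ) (ha : 0 < a) (hM : 0 ≤ M) {f : (Fin n → ℝ) → ℝ}
    (hf : AEStronglyMeasurable f volume) (h0 : ∀ x, 0 ≤ f x)
    (hle : ∀ x, f x ≤ M * Real.exp (-(a * ‖x‖))) :
    Integrable fun x => f x * Real.log (f x) := by
  have h1 : Integrable fun x : Fin n → ℝ =>
      2 * (M + 1) * (Real.sqrt M * Real.exp (-(a / 2 * ‖x‖))) := by
    have := integrable_poly_exp n (by positivity : 0 < a / 2) 0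
    simp only [pow_zero, one_mul] at this
    exact (this.const_mul _).const_mul _
  refine h1.mono' ?_ (ae_of_all _ fun x => ?_)
  · exact hf.mul (Real.measurable_log.comp_aemeasurable hf.aemeasurable).aestronglyMeasurable
  · rw [Real.norm_eq_abs]
    exact log_bound x ha hM (h0 x) (hle x)

theorem Dom.tendsto_ent (h : Dom F G M a) :
    Tendsto (fun k => ∫ x, F k x * Real.log (F k x)) atTop (𝓝 (∫ x, G x * Real.log (G x))) := by
  have h1 : Integrable fun x : Fin n → ℝ =>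
      2 * (M + 1) * (Real.sqrt M * Real.exp (-(a / 2 * ‖x‖))) := by
    have := integrable_poly_exp n (half_pos h.ha) 0
    simp only [pow_zero, one_mul] at this
    exact (this.const_mul _).const_mul _
  refine tendsto_integral_of_dominated_convergence _ (fun k => ?_) h1
    (fun k => ae_of_all _ fun x => ?_) ?_
  · exact (h.meas k).mul
      (Real.measurable_log.comp_aemeasurable (h.meas k).aemeasurable).aestronglyMeasurable
  · rw [Real.norm_eq_abs]
    exact log_bound x h.ha h.hM (h.nn k x) (h.le k x)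
  · filter_upwards [h.lim] with x hx
    have hc : Continuous fun t : ℝ => t * Real.log t := Real.continuous_mul_log
    exact (hc.tendsto (G x)).comp hx

lemma Dom.limit_nn (h : Dom F G M a) : ∀ᵐ x, 0 ≤ G x := by
  filter_upwards [h.lim] with x hx
  exact ge_of_tendsto' hx fun k => h.nn k x

lemma Dom.limit_le (h : Dom F G M a) : ∀ᵐ x, G x ≤ M * Real.exp (-(a * ‖x‖)) := by
  filter_upwards [h.lim] with x hx
  exact le_of_tendsto' hx fun k => h.le k x

end Vale.Agent.P254.R304
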