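import Vale.Agent.P254.R304.Bridge
import Vale.Agent.P254.K468.Body

/-!
P254: the output of block (R) in the format of block (K).
-/

open MeasureTheory Set Matrix Filter Topology Metric
open scoped Pointwise

namespace Vale.Agent.P254.R304

variable {n : ℕ} {f : (Fin n → ℝ) → ℝ} {M a : ℝ}

lemma Good.covF_eq (h : Good f M a) : K468.covF f = covF f := by
  have hZ := h.mass_pos
  ext i j
  unfold K468.covF K468.meanF K468.massF covF Ef
  simp only [of_apply]
  set Z := ∫ y, f y with hZd
  set mi := (∫ y, y i * f y) / Z with hmi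
  set mj := (∫ y, y j * f y) / Z with hmj
  have h1 : ∀ i, Integrable fun x : Fin n → ℝ => x i * f x := fun i => h.int (pg_coord i)
  have h2 : ∀ i j, Integrable fun x : Fin n → ℝ => x i * x j * f x := fun i j =>
    h.int (pg_coord2 i j)
  have e1 : (fun y : Fin n → ℝ => (y i - mi) * (y j - mj) * f y) =
      fun y => ((y i * y j * f y - mj * (y i * f y)) - mi * (y j * f y)) + mi * mj * f y := by
    ext y; ring
  have i1 : Integrable fun y : Fin n → ℝ => y i * y j * f y - mj * (y i * f y) :=
    (h2 i j).sub ((h1 i).const_mul _)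
  have i2 : Integrable fun y : Fin n → ℝ =>
      (y i * y j * f y - mj * (y i * f y)) - mi * (y j * f y) := i1.sub ((h1 j).const_mul _)
  rw [e1, integral_add i2 (h.int1.const_mul _), integral_sub i1 ((h1 j).const_mul _),
    integral_sub (h2 i j) ((h1 i).const_mul _), integral_const_mul, integral_const_mul,
    integral_const_mul]
  have ei : (∫ y, y i * f y) = mi * Z := by rw [hmi]; field_simp
  have ej : (∫ y, y j * f y) = mj * Z := by rw [hmj]; field_simp
  rw [ei, ej, ← hZd]
  field_simp
  ring

lemma Good.entF_eq (h : Good f M a) (hM : 0 ≤ M) : K468.entF f = entF f := by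
  have hZ := h.mass_pos
  unfold K468.entF K468.massF entF
  set Z := ∫ y, f y with hZd
  have hl : Integrable fun x => f x * Real.log (f x) :=
    ent_integrable a M h.ha hM h.meas h.nn h.le
  have e1 : (fun y => f y / Z * Real.log (f y / Z)) =
      fun y => Z⁻¹ * (f y * Real.log (f y)) - Z⁻¹ * Real.log Z * f y := by
    ext y
    rcases eq_or_ne (f y) 0 with h0 | h0
    · simp [h0]
    · rw [Real.log_div h0 hZ.ne']
      ring
  rw [e1, integral_sub (hl.const_mul _) (h.int1.const_mul _), integral_const_mul,
    integral_const_mul, ← hZd]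
  field_simp
  ring

lemma covF_congr {f g : (Fin n → ℝ) → ℝ} (h : f =ᵐ[volume] g) : K468.covF f = K468.covF g := by
  have hm : K468.massF f = K468.massF g := integral_congr_ae h
  have hmean : K468.meanF f = K468.meanF g := by
    ext i
    unfold K468.meanF
    rw [hm]
    congr 1
    exact integral_congr_ae (h.mono fun x hx => by simp only [hx])
  ext i j
  unfold K468.covF
  rw [hm, hmean]
  congr 1
  exact integral_congr_ae (h.mono fun x hx => by simp only [hx])

lemma entF_congr {f g : (Fin n → ℝ) → ℝ} (h : f =ᵐ[volume] g) : K468.entF f = K468.entF g := by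
  have hm : K468.massF f = K468.massF g := integral_congr_ae h
  unfold K468.entF
  rw [hm]
  congr 1
  exact integral_congr_ae (h.mono fun x hx => by simp only [hx])

lemma coneF_ae {K : Set (Fin n → ℝ)} : K468.coneF K =ᵐ[volume] coneDens K := by
  have h0 : ∀ᵐ z : Fin (n + 1) → ℝ, z ≠ 0 := by
    rw [ae_iff]
    simp
  filter_upwards [h0] with z hz
  unfold K468.coneF coneDens
  by_cases h : 0 < z 0 ∧ (fun i : Fin n => z i.succ) ∈ z 0 • K
  · rw [if_pos h, indicator_of_mem]
    obtain ⟨h1, y, hy, h2⟩ := h
    refine ⟨h1.le, y, hy, ?_⟩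
    rw [show z 0 • y = fun i : Fin n => z i.succ from h2]
    rfl
  · rw [if_neg h, indicator_of_notMem]
    rintro ⟨h1, y, hy, h2⟩
    rcases eq_or_lt_of_le h1 with h3 | h3
    · apply hz
      ext i
      refine Fin.cases h3.symm (fun j => ?_) i
      have := congrFun h2 j
      simpa [Fin.tail, ← h3] using this
    · exact h ⟨h3, y, hy, h2.symm⟩

/-- The output of block (R) for block (K). -/
theorem DNonneg_coneF (hN : NiceDD (n + 1)) {K : Set (Fin n → ℝ)} (hK : IsConvexBody K) :
    K468.DNonneg (K468.coneF K) := by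
  have h1 := DD_coneDens_nonneg hN hK
  obtain ⟨a, ha, hdec⟩ := cone_decay hK.2.1
  have hg : Good (coneDens K) (Real.exp 0) a := by
    rw [coneDens_eq]
    exact good_limDens Matrix.PosSemidef.zero (isClosed_cone hK.2.1)
      (cone_interior hK.2.2) ha hdec
  unfold K468.DNonneg
  rw [covF_congr coneF_ae, entF_congr coneF_ae, hg.covF_eq, hg.entF_eq (Real.exp_pos _).le]
  unfold DD at h1
  linarith

end Vale.Agent.P254.R304
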