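import Vale.Agent.P254.R304.Weight

/-!
P254, block (R), part 5: the functional `D(f) = h(f) - ½ log det Cov(f) - n` and its continuity.
-/

open MeasureTheory Set Matrix Filter Topology Metric

namespace Vale.Agent.P254.R304

variable {n : ℕ}

/-- expectation of `φ` for the (unnormalised) density `f` -/
noncomputable def Ef (f φ : (Fin n → ℝ) → ℝ) : ℝ := (∫ x, φ x * f x) / (∫ x, f x)

/-- covariance matrix of the density `f` -/
noncomputable def covF (f : (Fin n → ℝ) → ℝ) : Matrix (Fin n) (Fin n) ℝ :=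
  Matrix.of fun i j => Ef f (fun x => x i * x j) - Ef f (fun x => x i) * Ef f (fun x => x j)

/-- entropy of the normalised density `f / ∫ f` -/
noncomputable def entF (f : (Fin n → ℝ) → ℝ) : ℝ :=
  Real.log (∫ x, f x) - (∫ x, f x * Real.log (f x)) / (∫ x, f x)

/-- `D(f) = h(f) - ½ log det Cov(f) - n` -/
noncomputable def DD (f : (Fin n → ℝ) → ℝ) : ℝ :=
  entF f - 1 / 2 * Real.log (covF f).det - n

lemma pg_one : PolyGrowth (fun _ : Fin n → ℝ => (1:ℝ)) :=
  ⟨aestronglyMeasurable_const, 1, 0, fun x => by simp⟩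

lemma pg_coord (i : Fin n) : PolyGrowth (fun x : Fin n → ℝ => x i) := by
  refine ⟨(continuous_apply i).aestronglyMeasurable, 1, 1, fun x => ?_⟩
  have := norm_le_pi_norm x i
  rw [Real.norm_eq_abs] at this
  linarith

lemma PolyGrowth.mul {p q : (Fin n → ℝ) → ℝ} (hp : PolyGrowth p) (hq : PolyGrowth q) :
    PolyGrowth (fun x => p x * q x) := by
  obtain ⟨hpm, A, N, hA⟩ := hp
  obtain ⟨hqm, A', N', hA'⟩ := hq
  refine ⟨hpm.mul hqm, A * A', N + N', fun x => ?_⟩
  rw [abs_mul]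
  calc |p x| * |q x| ≤ (A * (1 + ‖x‖) ^ N) * (A' * (1 + ‖x‖) ^ N') :=
        mul_le_mul (hA x) (hA' x) (abs_nonneg _) ((abs_nonneg _).trans (hA x))
    _ = A * A' * (1 + ‖x‖) ^ (N + N') := by ring

lemma pg_coord2 (i j : Fin n) : PolyGrowth (fun x : Fin n → ℝ => x i * x j) :=
  (pg_coord i).mul (pg_coord j)

variable {F : ℕ → (Fin n → ℝ) → ℝ} {G : (Fin n → ℝ) → ℝ} {M a : ℝ}

theorem Dom.tendsto_mass (h : Dom F G M a) :
    Tendsto (fun k => ∫ x, F k x) atTop (𝓝 (∫ x, G x)) := by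
  have := h.tendsto_moment pg_one
  simpa using this

theorem Dom.tendsto_Ef (h : Dom F G M a) (hG : (∫ x, G x) ≠ 0) {p : (Fin n → ℝ) → ℝ}
    (hp : PolyGrowth p) : Tendsto (fun k => Ef (F k) p) atTop (𝓝 (Ef G p)) :=
  (h.tendsto_moment hp).div h.tendsto_mass hG

theorem Dom.tendsto_cov (h : Dom F G M a) (hG : (∫ x, G x) ≠ 0) :
    Tendsto (fun k => covF (F k)) atTop (𝓝 (covF G)) := by
  refine tendsto_pi_nhds.2 fun i => tendsto_pi_nhds.2 fun j => ?_
  exact (h.tendsto_Ef hG (pg_coord2 i j)).sub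
    ((h.tendsto_Ef hG (pg_coord i)).mul (h.tendsto_Ef hG (pg_coord j)))

theorem Dom.tendsto_entF (h : Dom F G M a) (hG : (∫ x, G x) ≠ 0) :
    Tendsto (fun k => entF (F k)) atTop (𝓝 (entF G)) :=
  (h.tendsto_mass.log hG).sub (h.tendsto_ent.div h.tendsto_mass hG)

theorem Dom.tendsto_DD (h : Dom F G M a) (hG : (∫ x, G x) ≠ 0) (hdet : (covF G).det ≠ 0) :
    Tendsto (fun k => DD (F k)) atTop (𝓝 (DD G)) := by
  have h1 : Tendsto (fun k => (covF (F k)).det) atTop (𝓝 (covF G).det) :=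
    (Continuous.matrix_det continuous_id).continuousAt.tendsto.comp (h.tendsto_cov hG)
  exact ((h.tendsto_entF hG).sub ((h1.log hdet).const_mul _)).sub_const _

/-! ### scaling -/

lemma Ef_smul {s : ℝ} (hs : s ≠ 0) (f φ : (Fin n → ℝ) → ℝ) :
    Ef (fun x => s * f x) φ = Ef f φ := by
  unfold Ef
  have e1 : ∫ x, φ x * (s * f x) = s * ∫ x, φ x * f x := by
    rw [← integral_const_mul]
    congr 1
    ext x
    ring
  rw [e1, integral_const_mul, mul_div_mul_left _ _ hs]

lemma covF_smul {s : ℝ} (hs : s ≠ 0) (f : (Fin n → ℝ) → ℝ) :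
    covF (fun x => s * f x) = covF f := by
  unfold covF
  simp only [Ef_smul hs]

lemma entF_smul {s : ℝ} (hs : 0 < s) {f : (Fin n → ℝ) → ℝ} (hf : Integrable f)
    (hfl : Integrable fun x => f x * Real.log (f x)) (hZ : (∫ x, f x) ≠ 0) :
    entF (fun x => s * f x) = entF f := by
  unfold entF
  have e1 : (∫ x, s * f x * Real.log (s * f x)) =
      s * (Real.log s * (∫ x, f x) + ∫ x, f x * Real.log (f x)) := by
    rw [← integral_const_mul, ← integral_add (hf.const_mul _) hfl, ← integral_const_mul]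
    congr 1
    ext x
    rcases eq_or_ne (f x) 0 with h | h
    · simp [h]
    · rw [Real.log_mul hs.ne' h]
      ring
  rw [e1, integral_const_mul, Real.log_mul hs.ne' hZ, mul_div_mul_left _ _ hs.ne', add_div,
    mul_div_assoc, div_self hZ]
  ring

lemma DD_smul {s : ℝ} (hs : 0 < s) {f : (Fin n → ℝ) → ℝ} (hf : Integrable f)
    (hfl : Integrable fun x => f x * Real.log (f x)) (hZ : (∫ x, f x) ≠ 0) :
    DD (fun x => s * f x) = DD f := by
  unfold DD
  rw [entF_smul hs hf hfl hZ, covF_smul hs.ne']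

/-! ### positivity -/

/-- data of a density positive on a nonempty open set, with exponential decay -/
structure Good (f : (Fin n → ℝ) → ℝ) (M a : ℝ) : Prop where
  ha : 0 < a
  meas : AEStronglyMeasurable f volume
  nn : ∀ x, 0 ≤ f x
  le : ∀ x, f x ≤ M * Real.exp (-(a * ‖x‖))
  pos : ∃ U : Set (Fin n → ℝ), IsOpen U ∧ U.Nonempty ∧ ∀ x ∈ U, 0 < f x

variable {f : (Fin n → ℝ) → ℝ}

lemma Good.int (h : Good f M a) {p : (Fin n → ℝ) → ℝ} (hp : PolyGrowth p) :
    Integrable fun x => p x * f x :=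
  poly_bound_integrable a M h.ha hp h.meas h.nn h.le

lemma Good.int1 (h : Good f M a) : Integrable f := by simpa using h.int pg_one

lemma Good.mass_pos (h : Good f M a) : 0 < ∫ x, f x := by
  obtain ⟨U, hU, hUne, hpos⟩ := h.pos
  rw [integral_pos_iff_support_of_nonneg h.nn h.int1]
  refine (hU.measure_pos _ hUne).trans_le (measure_mono fun x hx => ?_)
  exact (hpos x hx).ne'

lemma Good.covF_quad (h : Good f M a) (u : Fin n → ℝ) :
    u ⬝ᵥ covF f *ᵥ u = Ef f (fun x => (u ⬝ᵥ x - u ⬝ᵥ (fun i => Ef f (fun y => y i))) ^ 2) := by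
  have hZ := h.mass_pos
  set Z := ∫ x, f x with hZd
  set m : Fin n → ℝ := fun i => Ef f (fun y => y i) with hm
  -- integrability facts
  have h1 : ∀ i, Integrable fun x : Fin n → ℝ => x i * f x := fun i => h.int (pg_coord i)
  have h2 : ∀ i j, Integrable fun x : Fin n → ℝ => x i * x j * f x := fun i j =>
    h.int (pg_coord2 i j)
  have hlin : ∀ v : Fin n → ℝ, ∫ x, (v ⬝ᵥ x) * f x = v ⬝ᵥ (fun i => ∫ x, x i * f x) := by
    intro v
    have : (fun x : Fin n → ℝ => (v ⬝ᵥ x) * f x) = fun x => ∑ i, v i * (x i * f x) := by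
      ext x
      unfold dotProduct
      rw [Finset.sum_mul]
      exact Finset.sum_congr rfl fun i _ => by ring
    rw [this, integral_finsetSum _ fun i _ => (h1 i).const_mul _]
    unfold dotProduct
    exact Finset.sum_congr rfl fun i _ => integral_const_mul _ _
  have hlini : Integrable fun x : Fin n → ℝ => (u ⬝ᵥ x) * f x := by
    have : (fun x : Fin n → ℝ => (u ⬝ᵥ x) * f x) = fun x => ∑ i, u i * (x i * f x) := by
      ext x
      unfold dotProduct
      rw [Finset.sum_mul]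
      exact Finset.sum_congr rfl fun i _ => by ring
    rw [this]
    exact integrable_finsetSum _ fun i _ => (h1 i).const_mul _
  have hquad_eq : (fun x : Fin n → ℝ => (u ⬝ᵥ x) ^ 2 * f x) =
      fun x => ∑ i, ∑ j, u i * u j * (x i * x j * f x) := by
    ext x
    unfold dotProduct
    rw [sq, Finset.sum_mul_sum, Finset.sum_mul]
    refine Finset.sum_congr rfl fun i _ => ?_
    rw [Finset.sum_mul]
    exact Finset.sum_congr rfl fun j _ => by ring
  have hquadi : Integrable fun x : Fin n → ℝ => (u ⬝ᵥ x) ^ 2 * f x := by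
    rw [hquad_eq]
    exact integrable_finsetSum _ fun i _ => integrable_finsetSum _ fun j _ =>
      (h2 i j).const_mul _
  have hquad : ∫ x, (u ⬝ᵥ x) ^ 2 * f x = ∑ i, ∑ j, u i * u j * ∫ x, x i * x j * f x := by
    rw [hquad_eq, integral_finsetSum _ fun i _ => integrable_finsetSum _ fun j _ =>
      (h2 i j).const_mul _]
    refine Finset.sum_congr rfl fun i _ => ?_
    rw [integral_finsetSum _ fun j _ => (h2 i j).const_mul _]
    exact Finset.sum_congr rfl fun j _ => integral_const_mul _ _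
  have hum : u ⬝ᵥ m = (∫ x, (u ⬝ᵥ x) * f x) / Z := by
    rw [hlin]
    unfold dotProduct
    rw [Finset.sum_div]
    refine Finset.sum_congr rfl fun i _ => ?_
    simp only [hm, Ef]
    ring
  have hexp : (∫ x, (u ⬝ᵥ x - u ⬝ᵥ m) ^ 2 * f x) =
      (∫ x, (u ⬝ᵥ x) ^ 2 * f x) - 2 * (u ⬝ᵥ m) * (∫ x, (u ⬝ᵥ x) * f x) + (u ⬝ᵥ m) ^ 2 * Z := by
    have : (fun x : Fin n → ℝ => (u ⬝ᵥ x - u ⬝ᵥ m) ^ 2 * f x) =
        fun x => ((u ⬝ᵥ x) ^ 2 * f x - 2 * (u ⬝ᵥ m) * ((u ⬝ᵥ x) * f x)) + (u ⬝ᵥ m) ^ 2 * f x := by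
      ext x; ring
    have hsub : Integrable fun x : Fin n → ℝ =>
        (u ⬝ᵥ x) ^ 2 * f x - 2 * (u ⬝ᵥ m) * ((u ⬝ᵥ x) * f x) := hquadi.sub (hlini.const_mul _)
    rw [this, integral_add hsub (h.int1.const_mul _),
      integral_sub hquadi (hlini.const_mul _), integral_const_mul, integral_const_mul]
  change _ = (∫ x, (u ⬝ᵥ x - u ⬝ᵥ m) ^ 2 * f x) / Z
  rw [hexp]
  have hlhs : u ⬝ᵥ covF f *ᵥ u = (∑ i, ∑ j, u i * u j * ∫ x, x i * x j * f x) / Z -
      (u ⬝ᵥ m) ^ 2 := by
    unfold covF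
    simp only [dotProduct, mulVec, of_apply]
    rw [Finset.sum_div, sq, Finset.sum_mul_sum, ← Finset.sum_sub_distrib]
    refine Finset.sum_congr rfl fun i _ => ?_
    rw [Finset.mul_sum, Finset.sum_div, ← Finset.sum_sub_distrib]
    refine Finset.sum_congr rfl fun j _ => ?_
    simp only [hm]
    rw [Ef, ← hZd]
    ring
  rw [hlhs, ← hquad]
  have hL : (∫ x, (u ⬝ᵥ x) * f x) = (u ⬝ᵥ m) * Z := by
    rw [hum]; field_simp
  rw [hL]
  field_simp
  ring

lemma Good.covF_posDef (h : Good f M a) : (covF f).PosDef := by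
  rw [Matrix.posDef_iff_dotProduct_mulVec]
  refine ⟨?_, fun u hu => ?_⟩
  · ext i j
    simp only [conjTranspose_apply, star_trivial, covF, of_apply]
    have : (fun x : Fin n → ℝ => x j * x i) = fun x => x i * x j := by
      ext x; ring
    rw [this]
    ring
  · have hst : star u = u := star_trivial u
    rw [hst, h.covF_quad]
    set b := u ⬝ᵥ (fun i => Ef f (fun y => y i)) with hb
    unfold Ef
    apply div_pos _ h.mass_pos
    have hpg : PolyGrowth (fun x : Fin n → ℝ => (u ⬝ᵥ x - b) ^ 2) := by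
      refine ⟨?_, (n * ‖u‖ + |b|) ^ 2, 2, fun x => ?_⟩
      · apply Continuous.aestronglyMeasurable
        simp only [dotProduct]
        fun_prop
      · rw [abs_pow]
        have h1 := abs_dot_le' u x
        have h2 : |u ⬝ᵥ x - b| ≤ (n * ‖u‖ + |b|) * (1 + ‖x‖) := by
          have h3 : |u ⬝ᵥ x - b| ≤ |u ⬝ᵥ x| + |b| := abs_sub _ _
          have h4 : 0 ≤ |b| := abs_nonneg _
          have h5 : 0 ≤ ‖x‖ := norm_nonneg _
          have h6 : 0 ≤ n * ‖u‖ := by positivity
          nlinarith [mul_nonneg h4 h5]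
        calc |u ⬝ᵥ x - b| ^ 2 ≤ ((n * ‖u‖ + |b|) * (1 + ‖x‖)) ^ 2 := by gcongr
          _ = _ := by ring
    rw [integral_pos_iff_support_of_nonneg (fun x => mul_nonneg (sq_nonneg _) (h.nn x))
      (h.int hpg)]
    obtain ⟨U, hU, hUne, hpos⟩ := h.pos
    -- the open set U minus the hyperplane
    set H : Set (Fin n → ℝ) := {x | u ⬝ᵥ x ≠ b} with hH
    have hcu : Continuous fun x : Fin n → ℝ => u ⬝ᵥ x := by
      simp only [dotProduct]
      fun_prop
    have hHo : IsOpen H := isOpen_ne_fun hcu continuous_const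
    have hne : (U ∩ H).Nonempty := by
      obtain ⟨x, hx⟩ := hUne
      by_cases hxb : u ⬝ᵥ x = b
      · -- perturb
        have hc : Tendsto (fun s : ℝ => x + s • u) (𝓝[>] 0) (𝓝 x) := by
          have : Continuous fun s : ℝ => x + s • u := by fun_prop
          have := (this.tendsto 0).mono_left (nhdsWithin_le_nhds (s := Ioi (0:ℝ)))
          simpa using this
        have h1 : ∀ᶠ s in 𝓝[>] (0:ℝ), x + s • u ∈ U := hc (hU.mem_nhds hx)
        have h2 : ∀ᶠ s in 𝓝[>] (0:ℝ), 0 < s := eventually_mem_nhdsWithin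
        obtain ⟨s, hs1, hs2⟩ := (h1.and h2).exists
        refine ⟨x + s • u, hs1, ?_⟩
        change u ⬝ᵥ (x + s • u) ≠ b
        rw [dotProduct_add, dotProduct_smul, smul_eq_mul, hxb]
        have := dot_pos hu
        have h3 : 0 < s * (u ⬝ᵥ u) := by positivity
        linarith
      · exact ⟨x, hx, hxb⟩
    refine ((hU.inter hHo).measure_pos _ hne).trans_le (measure_mono ?_)
    rintro x ⟨hxU, hxH⟩
    have h1 : u ⬝ᵥ x - b ≠ 0 := sub_ne_zero.2 hxH
    exact mul_ne_zero (pow_ne_zero _ h1) (hpos x hxU).ne'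

lemma Good.det_pos (h : Good f M a) : 0 < (covF f).det := h.covF_posDef.det_pos

end Vale.Agent.P254.R304
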