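import Vale.Agent.P254.R304.Approx

/-!
P254, block (R), part 2: bounds for Gaussian convolutions of indicator functions.
-/

open MeasureTheory Set Matrix Filter Topology Metric

namespace Vale.Agent.P254.R304

variable {n : ℕ}

/-- Gaussian integral over a set -/
noncomputable def qq (ε : ℝ) (S : Set (Fin n → ℝ)) (x : Fin n → ℝ) : ℝ :=
  ∫ y in S, Real.exp (-((x - y) ⬝ᵥ (x - y)) / (2 * ε))

/-- total mass of the Gaussian -/
noncomputable def GG (n : ℕ) (ε : ℝ) : ℝ :=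
  ∫ z : Fin n → ℝ, Real.exp (-(z ⬝ᵥ z) / (2 * ε))

lemma gauss_integrable {ε : ℝ} (hε : 0 < ε) :
    Integrable fun z : Fin n → ℝ => Real.exp (-(z ⬝ᵥ z) / (2 * ε)) := by
  have h1 : Integrable (fun v : Fin n → ℝ => ∏ i, Real.exp (-(1 / (2 * ε)) * (v i) ^ 2)) := by
    apply Integrable.fintype_prod
      (f := fun _ : Fin n => fun t : ℝ => Real.exp (-(1 / (2 * ε)) * t ^ 2))
    intro i
    exact integrable_exp_neg_mul_sq (by positivity)
  refine h1.congr (ae_of_all _ fun v => ?_)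
  simp only
  rw [← Real.exp_sum]
  congr 1
  unfold dotProduct
  rw [neg_div, Finset.sum_div, ← Finset.sum_neg_distrib]
  refine Finset.sum_congr rfl fun i _ => ?_
  ring

lemma GG_pos {ε : ℝ} (hε : 0 < ε) : 0 < GG n ε := integral_exp_pos (gauss_integrable hε)

lemma gauss_integrable' {ε : ℝ} (hε : 0 < ε) (x : Fin n → ℝ) :
    Integrable fun y : Fin n → ℝ => Real.exp (-((x - y) ⬝ᵥ (x - y)) / (2 * ε)) :=
  (gauss_integrable hε).comp_sub_left x

lemma gauss_total (ε : ℝ) (x : Fin n → ℝ) :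
    ∫ y : Fin n → ℝ, Real.exp (-((x - y) ⬝ᵥ (x - y)) / (2 * ε)) = GG n ε :=
  integral_sub_left_eq_self (fun z : Fin n → ℝ => Real.exp (-(z ⬝ᵥ z) / (2 * ε))) volume x

lemma GG_two (n : ℕ) {ε : ℝ} (hε : 0 < ε) : GG n (2 * ε) = Real.sqrt 2 ^ n * GG n ε := by
  have h := Measure.integral_comp_smul (volume : Measure (Fin n → ℝ))
    (fun z : Fin n → ℝ => Real.exp (-(z ⬝ᵥ z) / (2 * (2 * ε)))) (Real.sqrt 2)
  have e1 : (fun x : Fin n → ℝ => Real.exp (-((Real.sqrt 2 • x) ⬝ᵥ (Real.sqrt 2 • x)) / (2 * (2 * ε))))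
      = fun x : Fin n → ℝ => Real.exp (-(x ⬝ᵥ x) / (2 * ε)) := by
    ext x
    congr 1
    rw [dotProduct_smul, smul_dotProduct, smul_eq_mul, smul_eq_mul, ← mul_assoc,
      Real.mul_self_sqrt (by norm_num)]
    field_simp
  rw [e1] at h
  have h2 : (0:ℝ) < Real.sqrt 2 ^ n := by positivity
  rw [Module.finrank_fin_fun, abs_of_pos (by positivity), smul_eq_mul] at h
  unfold GG
  rw [h, mul_inv_cancel_left₀ h2.ne']

lemma qq_nonneg (ε : ℝ) (S : Set (Fin n → ℝ)) (x : Fin n → ℝ) : 0 ≤ qq ε S x :=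
  integral_nonneg fun _ => (Real.exp_pos _).le

lemma qq_le_GG {ε : ℝ} (hε : 0 < ε) (S : Set (Fin n → ℝ)) (x : Fin n → ℝ) :
    qq ε S x ≤ GG n ε := by
  rw [← gauss_total ε x]
  exact setIntegral_le_integral (gauss_integrable' hε x) (ae_of_all _ fun _ => (Real.exp_pos _).le)

/-- Gaussian tail. -/
lemma qq_le_tail {ε : ℝ} (hε : 0 < ε) {S : Set (Fin n → ℝ)} (hS : MeasurableSet S)
    (x : Fin n → ℝ) (d : ℝ)
    (hd : ∀ y ∈ S, d ^ 2 ≤ (x - y) ⬝ᵥ (x - y)) :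
    qq ε S x ≤ Real.exp (-d ^ 2 / (4 * ε)) * (Real.sqrt 2 ^ n * GG n ε) := by
  have h1 : qq ε S x ≤ ∫ y in S, Real.exp (-d ^ 2 / (4 * ε)) *
      Real.exp (-((x - y) ⬝ᵥ (x - y)) / (2 * (2 * ε))) := by
    unfold qq
    refine setIntegral_mono_on (gauss_integrable' hε x).integrableOn
      ((gauss_integrable' (by positivity) x).const_mul _).integrableOn hS fun y hy => ?_
    rw [← Real.exp_add]
    apply Real.exp_le_exp.2
    have := hd y hy
    rw [div_add_div _ _ (by positivity) (by positivity), div_le_div_iff₀ (by positivity) (by positivity)]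
    have h3 : 0 < ε ^ 3 := by positivity
    have h2 : 0 < ε ^ 2 := by positivity
    nlinarith [mul_le_mul_of_nonneg_left this h2.le]
  refine h1.trans ?_
  rw [integral_const_mul]
  have h2 := qq_le_GG (by positivity : 0 < 2 * ε) S x
  rw [GG_two n hε] at h2
  unfold qq at h2
  gcongr

lemma qq_ge {ε r : ℝ} (hε : 0 < ε) (hr : 0 < r) {S : Set (Fin n → ℝ)} (hS : MeasurableSet S)
    (x : Fin n → ℝ) (hb : closedBall x r ⊆ S) :
    GG n ε - Real.exp (-r ^ 2 / (4 * ε)) * (Real.sqrt 2 ^ n * GG n ε) ≤ qq ε S x := by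
  have h1 : qq ε S x + qq ε Sᶜ x = GG n ε := by
    rw [← gauss_total ε x]
    exact integral_add_compl hS (gauss_integrable' hε x)
  have h2 : qq ε Sᶜ x ≤ Real.exp (-r ^ 2 / (4 * ε)) * (Real.sqrt 2 ^ n * GG n ε) := by
    apply qq_le_tail hε hS.compl
    intro y hy
    have hy' : y ∉ closedBall x r := fun h => hy (hb h)
    rw [mem_closedBall, not_le, dist_comm, dist_eq_norm] at hy'
    have := norm_sq_le_dot' (x - y)
    have h3 : r ^ 2 ≤ ‖x - y‖ ^ 2 := by gcongr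
    linarith
  linarith

/-- normalised Gaussian convolution of the indicator of `S` -/
noncomputable def hh (ε : ℝ) (S : Set (Fin n → ℝ)) (x : Fin n → ℝ) : ℝ := (GG n ε)⁻¹ * qq ε S x

lemma hh_nonneg {ε : ℝ} (hε : 0 < ε) (S : Set (Fin n → ℝ)) (x : Fin n → ℝ) : 0 ≤ hh ε S x :=
  mul_nonneg (inv_nonneg.2 (GG_pos hε).le) (qq_nonneg _ _ _)

lemma hh_le_one {ε : ℝ} (hε : 0 < ε) (S : Set (Fin n → ℝ)) (x : Fin n → ℝ) : hh ε S x ≤ 1 := by
  unfold hh
  rw [inv_mul_le_iff₀ (GG_pos hε), mul_one]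
  exact qq_le_GG hε S x

lemma hh_le_tail {ε : ℝ} (hε : 0 < ε) {S : Set (Fin n → ℝ)} (hS : MeasurableSet S)
    (x : Fin n → ℝ) (d : ℝ) (hd : ∀ y ∈ S, d ^ 2 ≤ (x - y) ⬝ᵥ (x - y)) :
    hh ε S x ≤ Real.sqrt 2 ^ n * Real.exp (-d ^ 2 / (4 * ε)) := by
  unfold hh
  rw [inv_mul_le_iff₀ (GG_pos hε)]
  refine (qq_le_tail hε hS x d hd).trans (le_of_eq ?_)
  ring

lemma hh_ge {ε r : ℝ} (hε : 0 < ε) (hr : 0 < r) {S : Set (Fin n → ℝ)} (hS : MeasurableSet S)
    (x : Fin n → ℝ) (hb : closedBall x r ⊆ S) :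
    1 - Real.sqrt 2 ^ n * Real.exp (-r ^ 2 / (4 * ε)) ≤ hh ε S x := by
  unfold hh
  rw [← mul_le_mul_iff_right₀ (GG_pos (n := n) hε), ← mul_assoc, mul_inv_cancel₀ (GG_pos hε).ne',
    one_mul]
  refine le_trans (le_of_eq ?_) (qq_ge hε hr hS x hb)
  ring

lemma exp_neg_div_tendsto {r : ℝ} (hr : 0 < r) {ε : ℕ → ℝ} (hε : ∀ k, 0 < ε k)
    (hlim : Tendsto ε atTop (𝓝 0)) :
    Tendsto (fun k => Real.exp (-r ^ 2 / (4 * ε k))) atTop (𝓝 0) := by
  apply Real.tendsto_exp_atBot.comp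
  have h1 : Tendsto (fun k => 4 * ε k) atTop (𝓝[>] 0) := by
    apply tendsto_nhdsWithin_iff.2
    refine ⟨by simpa using hlim.const_mul 4, Eventually.of_forall fun k => ?_⟩
    have := hε k
    simp only [mem_Ioi]
    positivity
  have h2 := (tendsto_inv_nhdsGT_zero.comp h1).const_mul_atTop_of_neg (r := -r ^ 2)
    (by have := pow_pos hr 2; linarith)
  refine h2.congr fun k => ?_
  simp [div_eq_mul_inv]

/-- pointwise convergence of the convolutions -/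
lemma hh_tendsto_one {K : ℕ → Set (Fin n → ℝ)} (hKm : ∀ k, MeasurableSet (K k)) {ε : ℕ → ℝ}
    (hε : ∀ k, 0 < ε k) (hlim : Tendsto ε atTop (𝓝 0)) {x : Fin n → ℝ} {r : ℝ} (hr : 0 < r)
    (hb : ∀ᶠ k in atTop, closedBall x r ⊆ K k) :
    Tendsto (fun k => hh (ε k) (K k) x) atTop (𝓝 1) := by
  have h1 : Tendsto (fun k => 1 - Real.sqrt 2 ^ n * Real.exp (-r ^ 2 / (4 * ε k))) atTop
      (𝓝 (1 - Real.sqrt 2 ^ n * 0)) :=
    tendsto_const_nhds.sub ((exp_neg_div_tendsto hr hε hlim).const_mul _)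
  rw [mul_zero, sub_zero] at h1
  refine tendsto_of_tendsto_of_tendsto_of_le_of_le' h1 tendsto_const_nhds ?_ ?_
  · filter_upwards [hb] with k hk
    exact hh_ge (hε k) hr (hKm k) x hk
  · exact Eventually.of_forall fun k => hh_le_one (hε k) _ _

lemma hh_tendsto_zero {K : ℕ → Set (Fin n → ℝ)} (hKm : ∀ k, MeasurableSet (K k)) {ε : ℕ → ℝ}
    (hε : ∀ k, 0 < ε k) (hlim : Tendsto ε atTop (𝓝 0)) {x : Fin n → ℝ} {r : ℝ} (hr : 0 < r)
    (hb : ∀ k, ∀ y ∈ K k, r ≤ ‖x - y‖) :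
    Tendsto (fun k => hh (ε k) (K k) x) atTop (𝓝 0) := by
  have h1 : Tendsto (fun k => Real.sqrt 2 ^ n * Real.exp (-r ^ 2 / (4 * ε k))) atTop
      (𝓝 (Real.sqrt 2 ^ n * 0)) := (exp_neg_div_tendsto hr hε hlim).const_mul _
  rw [mul_zero] at h1
  refine squeeze_zero (fun k => hh_nonneg (hε k) _ _) (fun k => ?_) h1
  apply hh_le_tail (hε k) (hKm k)
  intro y hy
  have h2 := hb k y hy
  have h3 := norm_sq_le_dot' (x - y)
  have h4 : r ^ 2 ≤ ‖x - y‖ ^ 2 := by gcongr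
  linarith

end Vale.Agent.P254.R304
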