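import Vale.Agent.P254.R304.Func

/-!
P254, block (R), part 6: `D ≥ 0` (and all moments, the entropy) pass from the nice measures to
`1_C exp (⟨c,x⟩ - ⟨x,Bx⟩/2)`, `C` closed convex with nonempty interior.
-/

open MeasureTheory Set Matrix Filter Topology Metric

namespace Vale.Agent.P254.R304

variable {n : ℕ}

/-- nice weight (not normalised) -/
noncomputable def nice (K : Set (Fin n → ℝ)) (ε m : ℝ) (x : Fin n → ℝ) : ℝ :=
  qq ε K x * Real.exp (-(m / 2) * (x ⬝ᵥ x))

/-- convergence package: strictly convex bodies `K k`, and `ε, t → 0` -/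
theorem exists_dom {B : Matrix (Fin n) (Fin n) ℝ} (hB : B.PosSemidef) {c : Fin n → ℝ}
    {C : Set (Fin n → ℝ)} (hC : IsClosed C) (hconv : Convex ℝ C) (hi : (interior C).Nonempty)
    {a b : ℝ} (ha : 0 < a) (hdec : ∀ y ∈ C, c ⬝ᵥ y ≤ b - a * ‖y‖) :
    ∃ (K : ℕ → Set (Fin n → ℝ)) (s : ℕ → ℝ) (M : ℝ), (∀ k, IsCompact (K k)) ∧
      (∀ k, StrictConvex ℝ (K k)) ∧ (∀ k, (interior (K k)).Nonempty) ∧ (∀ k, K k ⊆ C) ∧
      (∀ k, 0 < s k) ∧ (∀ k, s k ≤ 1) ∧ Tendsto s atTop (𝓝 0) ∧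
      Dom (fun k => dens B c (K k) (s k) (s k + s k)) (limDens B c C) M a := by
  obtain ⟨K, hK1, hK2, hK3, hK4, hK5⟩ := exists_strictConvex_approx hC hconv hi
  refine ⟨K, fun k => 1 / ((k:ℝ) + 1), _, hK1, hK2, hK3, hK4, fun k => by positivity, fun k => ?_,
    tendsto_one_div_add_atTop_nhds_zero_nat,
    dom_dens hB hC hconv (hi.mono interior_subset) ha hdec (fun k => (hK1 k).measurableSet) hK4 hK5
      (fun k => by positivity) (fun k => ?_) (fun k => by positivity)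
      tendsto_one_div_add_atTop_nhds_zero_nat ?_⟩
  · rw [div_le_one (by positivity)]
    have : (0:ℝ) ≤ k := Nat.cast_nonneg k
    linarith
  · rw [div_le_one (by positivity)]
    have : (0:ℝ) ≤ k := Nat.cast_nonneg k
    linarith
  · have := (tendsto_one_div_add_atTop_nhds_zero_nat (𝕜 := ℝ)).add
      (tendsto_one_div_add_atTop_nhds_zero_nat (𝕜 := ℝ))
    simpa using this

lemma tilt_add_smul (B : Matrix (Fin n) (Fin n) ℝ) (c : Fin n → ℝ) (δ : ℝ) (x : Fin n → ℝ) :
    tilt (B + δ • 1) c x = tilt B c x * Real.exp (-(δ / 2) * (x ⬝ᵥ x)) := by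
  unfold tilt
  rw [← Real.exp_add]
  congr 1
  rw [add_mulVec, dotProduct_add, smul_mulVec, one_mulVec, dotProduct_smul, smul_eq_mul]
  ring

/-- the approximating densities are nice weights up to a constant factor -/
lemma dens_eq (B : Matrix (Fin n) (Fin n) ℝ) (c : Fin n → ℝ) (K : Set (Fin n → ℝ)) (ε m δ : ℝ)
    (x : Fin n → ℝ) :
    dens B c K ε (m + δ) x = (GG n ε)⁻¹ * (tilt (B + δ • 1) c x * nice K ε m x) := by
  unfold dens nice hh
  rw [tilt_add_smul]
  have : Real.exp (-((m + δ) / 2) * (x ⬝ᵥ x)) =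
      Real.exp (-(m / 2) * (x ⬝ᵥ x)) * Real.exp (-(δ / 2) * (x ⬝ᵥ x)) := by
    rw [← Real.exp_add]; congr 1; ring
  rw [this]
  ring

lemma posDef_add_smul {B : Matrix (Fin n) (Fin n) ℝ} (hB : B.PosSemidef) {δ : ℝ} (hδ : 0 < δ) :
    (B + δ • (1 : Matrix (Fin n) (Fin n) ℝ)).PosDef := by
  apply Matrix.PosDef.posSemidef_add hB
  exact Matrix.PosDef.smul Matrix.PosDef.one hδ

/-- the limit density is `Good` -/
lemma good_limDens {B : Matrix (Fin n) (Fin n) ℝ} (hB : B.PosSemidef) {c : Fin n → ℝ}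
    {C : Set (Fin n → ℝ)} (hC : IsClosed C) (hi : (interior C).Nonempty)
    {a b : ℝ} (ha : 0 < a) (hdec : ∀ y ∈ C, c ⬝ᵥ y ≤ b - a * ‖y‖) :
    Good (limDens B c C) (Real.exp b) a where
  ha := ha
  meas := ((continuous_tilt B c).measurable.indicator hC.measurableSet).aestronglyMeasurable
  nn := fun x => indicator_nonneg (fun y _ => (tilt_pos B c y).le) x
  le := fun x => by
    unfold limDens
    by_cases hx : x ∈ C
    · rw [indicator_of_mem hx, ← Real.exp_add]
      refine (tilt_le hB c x).trans (Real.exp_le_exp.2 ?_)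
      have := hdec x hx
      linarith
    · rw [indicator_of_notMem hx]
      positivity
  pos := ⟨interior C, isOpen_interior, hi, fun x hx => by
    unfold limDens
    rw [indicator_of_mem (interior_subset hx)]
    exact tilt_pos B c x⟩

/-- the approximating densities are `Good` -/
lemma good_dens {B : Matrix (Fin n) (Fin n) ℝ} (hB : B.PosSemidef) {c : Fin n → ℝ}
    {C : Set (Fin n → ℝ)} (hC : IsClosed C) (hne : C.Nonempty) {a b : ℝ} (ha : 0 < a)
    (hdec : ∀ y ∈ C, c ⬝ᵥ y ≤ b - a * ‖y‖) {K : Set (Fin n → ℝ)} (hK : MeasurableSet K)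
    (hKi : (interior K).Nonempty)
    (hKC : K ⊆ C) {ε t : ℝ} (hε : 0 < ε) (hε1 : ε ≤ 1) (ht : 0 ≤ t) :
    Good (dens B c K ε t) (Real.sqrt 2 ^ n * Real.exp (b + (a + n * ‖c‖) ^ 2)) a where
  ha := ha
  meas := (measurable_dens B c K ε t).aestronglyMeasurable
  nn := fun x => dens_nonneg B c K hε t x
  le := fun x => dens_le hB hC hne ha hdec hK hKC hε hε1 ht x
  pos := ⟨univ, isOpen_univ, univ_nonempty, fun x _ => by
    unfold dens hh qq
    refine mul_pos (tilt_pos _ _ _) (mul_pos (mul_pos (inv_pos.2 (GG_pos hε)) ?_)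
      (Real.exp_pos _))
    rw [setIntegral_pos_iff_support_of_nonneg_ae (ae_of_all _ fun y => (Real.exp_pos _).le)
      (gauss_integrable' hε x).integrableOn]
    have : Function.support (fun y : Fin n → ℝ =>
        Real.exp (-((x - y) ⬝ᵥ (x - y)) / (2 * ε))) = univ := by
      ext y
      simp [(Real.exp_pos _).ne']
    rw [this, univ_inter]
    exact (isOpen_interior.measure_pos _ hKi).trans_le (measure_mono interior_subset)⟩

/-- `D ≥ 0` for all nice measures (in dimension `n`) -/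
def NiceDD (n : ℕ) : Prop :=
  ∀ (K : Set (Fin n → ℝ)), IsCompact K → StrictConvex ℝ K → (interior K).Nonempty →
    ∀ ε m : ℝ, 0 < ε → 0 < m → ∀ (B : Matrix (Fin n) (Fin n) ℝ), B.PosDef → ∀ c : Fin n → ℝ,
      0 ≤ DD (fun x => tilt B c x * nice K ε m x)

/-- Block (R): `D ≥ 0` for `1_C exp (⟨c,x⟩ - ⟨x,Bx⟩/2)`. -/
theorem DD_limDens_nonneg (hN : NiceDD n) {B : Matrix (Fin n) (Fin n) ℝ} (hB : B.PosSemidef)
    {c : Fin n → ℝ} {C : Set (Fin n → ℝ)} (hC : IsClosed C) (hconv : Convex ℝ C)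
    (hi : (interior C).Nonempty) {a b : ℝ} (ha : 0 < a)
    (hdec : ∀ y ∈ C, c ⬝ᵥ y ≤ b - a * ‖y‖) :
    0 ≤ DD (limDens B c C) := by
  obtain ⟨K, s, M, hK1, hK2, hK3, hK4, hs, hs1, -, hdom⟩ := exists_dom hB hC hconv hi ha hdec
  have hgood := good_limDens hB hC hi ha hdec
  have hlim := hdom.tendsto_DD hgood.mass_pos.ne' hgood.det_pos.ne'
  refine ge_of_tendsto' hlim fun k => ?_
  have hg := good_dens hB hC (hi.mono interior_subset) ha hdec (hK1 k).measurableSet (hK3 k)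
    (hK4 k) (hs k) (hs1 k) (t := s k + s k) (by have := hs k; linarith)
  have h1 := hN (K k) (hK1 k) (hK2 k) (hK3 k) (s k) (s k) (hs k) (hs k) (B + (s k) • 1)
    (posDef_add_smul hB (hs k)) c
  have e1 : (fun x => tilt (B + (s k) • 1) c x * nice (K k) (s k) (s k) x) =
      fun x => GG n (s k) * dens B c (K k) (s k) (s k + s k) x := by
    ext x
    rw [dens_eq, mul_inv_cancel_left₀ (GG_pos (hs k)).ne']
  rw [e1, DD_smul (GG_pos (hs k)) hg.int1 ?_ hg.mass_pos.ne'] at h1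
  · exact h1
  · exact ent_integrable a _ ha (by positivity) hg.meas hg.nn hg.le

end Vale.Agent.P254.R304
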