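import Vale.Agent.P254.R304.Dct

/-!
P254, block (R), part 4: the nice weights converge, with domination, to `1_C exp (⟨c,x⟩ - ⟨x,Bx⟩/2)`.
-/

open MeasureTheory Set Matrix Filter Topology Metric

namespace Vale.Agent.P254.R304

variable {n : ℕ}

/-- tilt factor -/
noncomputable def tilt (B : Matrix (Fin n) (Fin n) ℝ) (c x : Fin n → ℝ) : ℝ :=
  Real.exp (c ⬝ᵥ x - (1 / 2) * (x ⬝ᵥ B *ᵥ x))

lemma tilt_pos (B : Matrix (Fin n) (Fin n) ℝ) (c x : Fin n → ℝ) : 0 < tilt B c x := Real.exp_pos _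

lemma continuous_tilt (B : Matrix (Fin n) (Fin n) ℝ) (c : Fin n → ℝ) : Continuous (tilt B c) := by
  unfold tilt
  simp only [dotProduct, mulVec]
  fun_prop

lemma tilt_le {B : Matrix (Fin n) (Fin n) ℝ} (hB : B.PosSemidef) (c x : Fin n → ℝ) :
    tilt B c x ≤ Real.exp (c ⬝ᵥ x) := by
  apply Real.exp_le_exp.2
  have := hB.dotProduct_mulVec_nonneg x
  simp only [star_trivial] at this
  linarith

lemma measurable_qq (ε : ℝ) {K : Set (Fin n → ℝ)} : Measurable (qq ε K) := by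
  have h : StronglyMeasurable fun p : (Fin n → ℝ) × (Fin n → ℝ) =>
      Real.exp (-((p.1 - p.2) ⬝ᵥ (p.1 - p.2)) / (2 * ε)) := by
    apply Continuous.stronglyMeasurable
    simp only [dotProduct]
    fun_prop
  have := h.integral_prod_right' (ν := (volume : Measure (Fin n → ℝ)).restrict K)
  exact this.measurable

lemma measurable_hh (ε : ℝ) {K : Set (Fin n → ℝ)} : Measurable (hh ε K) :=
  (measurable_qq ε).const_mul _

lemma abs_dot_le' (v y : Fin n → ℝ) : |v ⬝ᵥ y| ≤ n * ‖v‖ * ‖y‖ := by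
  unfold dotProduct
  calc |∑ i, v i * y i| ≤ ∑ i, |v i * y i| := Finset.abs_sum_le_sum_abs _ _
    _ ≤ ∑ _i : Fin n, ‖v‖ * ‖y‖ := by
        refine Finset.sum_le_sum fun i _ => ?_
        rw [abs_mul]
        exact mul_le_mul (norm_le_pi_norm v i) (norm_le_pi_norm y i) (abs_nonneg _) (norm_nonneg _)
    _ = n * ‖v‖ * ‖y‖ := by simp [mul_assoc]

/-- the approximating densities -/
noncomputable def dens (B : Matrix (Fin n) (Fin n) ℝ) (c : Fin n → ℝ) (K : Set (Fin n → ℝ))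
    (ε t : ℝ) (x : Fin n → ℝ) : ℝ :=
  tilt B c x * (hh ε K x * Real.exp (-(t / 2) * (x ⬝ᵥ x)))

lemma dens_nonneg (B : Matrix (Fin n) (Fin n) ℝ) (c : Fin n → ℝ) (K : Set (Fin n → ℝ))
    {ε : ℝ} (hε : 0 < ε) (t : ℝ) (x : Fin n → ℝ) : 0 ≤ dens B c K ε t x :=
  mul_nonneg (tilt_pos _ _ _).le (mul_nonneg (hh_nonneg hε _ _) (Real.exp_pos _).le)

lemma measurable_dens (B : Matrix (Fin n) (Fin n) ℝ) (c : Fin n → ℝ) (K : Set (Fin n → ℝ))
    (ε t : ℝ) : Measurable (dens B c K ε t) := by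
  unfold dens
  refine (continuous_tilt B c).measurable.mul ((measurable_hh ε).mul ?_)
  apply Continuous.measurable
  simp only [dotProduct]
  fun_prop

lemma dens_le {B : Matrix (Fin n) (Fin n) ℝ} (hB : B.PosSemidef) {c : Fin n → ℝ}
    {C : Set (Fin n → ℝ)} (hC : IsClosed C) (hne : C.Nonempty) {a b : ℝ} (ha : 0 < a)
    (hdec : ∀ y ∈ C, c ⬝ᵥ y ≤ b - a * ‖y‖) {K : Set (Fin n → ℝ)} (hK : MeasurableSet K)
    (hKC : K ⊆ C) {ε t : ℝ} (hε : 0 < ε) (hε1 : ε ≤ 1) (ht : 0 ≤ t) (x : Fin n → ℝ) :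
    dens B c K ε t x ≤
      (Real.sqrt 2 ^ n * Real.exp (b + (a + n * ‖c‖) ^ 2)) * Real.exp (-(a * ‖x‖)) := by
  obtain ⟨y0, hy0, hd⟩ := hC.exists_infDist_eq_dist hne x
  set d := infDist x C with hdd
  have hd0 : 0 ≤ d := infDist_nonneg
  have h1 : hh ε K x ≤ Real.sqrt 2 ^ n * Real.exp (-d ^ 2 / (4 * ε)) := by
    apply hh_le_tail hε hK
    intro y hy
    have h2 : d ≤ ‖x - y‖ := by
      rw [← dist_eq_norm]
      exact infDist_le_dist_of_mem (hKC hy)
    have h3 := norm_sq_le_dot' (x - y)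
    have h4 : d ^ 2 ≤ ‖x - y‖ ^ 2 := by gcongr
    linarith
  have h2 : Real.exp (-d ^ 2 / (4 * ε)) ≤ Real.exp (-(d ^ 2 / 4)) := by
    apply Real.exp_le_exp.2
    rw [neg_div, neg_le_neg_iff]
    apply div_le_div_of_nonneg_left (sq_nonneg d) (by positivity)
    linarith
  have h3 : Real.exp (-(t / 2) * (x ⬝ᵥ x)) ≤ 1 := by
    apply Real.exp_le_one_iff.2
    have := dot_nonneg x
    have h4 : 0 ≤ t / 2 * (x ⬝ᵥ x) := by positivity
    linarith
  have h4 : tilt B c x ≤ Real.exp (b - a * ‖x‖ + (a + n * ‖c‖) * d) := by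
    refine (tilt_le hB c x).trans (Real.exp_le_exp.2 ?_)
    have e1 : c ⬝ᵥ x = c ⬝ᵥ y0 + c ⬝ᵥ (x - y0) := by rw [dotProduct_sub]; ring
    have e2 := hdec y0 hy0
    have e3 := (le_abs_self _).trans (abs_dot_le' c (x - y0))
    rw [← dist_eq_norm, ← hd] at e3
    have e4 : ‖x‖ ≤ ‖y0‖ + d := by
      rw [hd, dist_eq_norm]
      calc ‖x‖ = ‖y0 + (x - y0)‖ := by congr 1; abel
        _ ≤ ‖y0‖ + ‖x - y0‖ := norm_add_le _ _
    have e5 : a * ‖x‖ ≤ a * (‖y0‖ + d) := by gcongr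
    rw [e1]
    linarith
  unfold dens
  have h0 : 0 ≤ hh ε K x := hh_nonneg hε _ _
  calc tilt B c x * (hh ε K x * Real.exp (-(t / 2) * (x ⬝ᵥ x)))
      ≤ Real.exp (b - a * ‖x‖ + (a + n * ‖c‖) * d) *
          ((Real.sqrt 2 ^ n * Real.exp (-(d ^ 2 / 4))) * 1) := by
        have h5 : hh ε K x ≤ Real.sqrt 2 ^ n * Real.exp (-(d ^ 2 / 4)) :=
          h1.trans (by gcongr)
        have := (Real.exp_pos (-(t / 2) * (x ⬝ᵥ x))).le
        gcongr
    _ = Real.sqrt 2 ^ n * Real.exp (b - a * ‖x‖ + (a + n * ‖c‖) * d - d ^ 2 / 4) := by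
        rw [mul_one, sub_eq_add_neg (b - a * ‖x‖ + (a + n * ‖c‖) * d),
          Real.exp_add (b - a * ‖x‖ + (a + n * ‖c‖) * d)]
        ring
    _ ≤ Real.sqrt 2 ^ n * Real.exp ((b + (a + n * ‖c‖) ^ 2) + (-(a * ‖x‖))) := by
        have : b - a * ‖x‖ + (a + n * ‖c‖) * d - d ^ 2 / 4 ≤
            (b + (a + n * ‖c‖) ^ 2) + (-(a * ‖x‖)) := by
          nlinarith [sq_nonneg (a + n * ‖c‖ - d / 2)]
        gcongr
    _ = _ := by rw [Real.exp_add]; ring

/-- the limit of the approximating densities -/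
noncomputable def limDens (B : Matrix (Fin n) (Fin n) ℝ) (c : Fin n → ℝ) (C : Set (Fin n → ℝ)) :
    (Fin n → ℝ) → ℝ := C.indicator (tilt B c)

theorem dom_dens {B : Matrix (Fin n) (Fin n) ℝ} (hB : B.PosSemidef) {c : Fin n → ℝ}
    {C : Set (Fin n → ℝ)} (hC : IsClosed C) (hconv : Convex ℝ C) (hne : C.Nonempty) {a b : ℝ}
    (ha : 0 < a) (hdec : ∀ y ∈ C, c ⬝ᵥ y ≤ b - a * ‖y‖) {K : ℕ → Set (Fin n → ℝ)}
    (hK : ∀ k, MeasurableSet (K k)) (hKC : ∀ k, K k ⊆ C)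
    (hex : ∀ x ∈ interior C, ∃ r > 0, ∀ᶠ k in atTop, closedBall x r ⊆ K k) {ε t : ℕ → ℝ}
    (hε : ∀ k, 0 < ε k) (hε1 : ∀ k, ε k ≤ 1) (ht : ∀ k, 0 ≤ t k)
    (hεl : Tendsto ε atTop (𝓝 0)) (htl : Tendsto t atTop (𝓝 0)) :
    Dom (fun k => dens B c (K k) (ε k) (t k)) (limDens B c C)
      (Real.sqrt 2 ^ n * Real.exp (b + (a + n * ‖c‖) ^ 2)) a where
  ha := ha
  hM := by positivity
  meas := fun k => (measurable_dens B c (K k) (ε k) (t k)).aestronglyMeasurable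
  nn := fun k x => dens_nonneg B c (K k) (hε k) (t k) x
  le := fun k x => dens_le hB hC hne ha hdec (hK k) (hKC k) (hε k) (hε1 k) (ht k) x
  lim := by
    have h0 : ∀ᵐ x ∂(volume : Measure (Fin n → ℝ)), x ∉ frontier C := by
      rw [ae_iff]
      simpa using hconv.addHaar_frontier volume
    filter_upwards [h0] with x hx
    have hexp : Tendsto (fun k => Real.exp (-(t k / 2) * (x ⬝ᵥ x))) atTop (𝓝 1) := by
      have : Tendsto (fun k => -(t k / 2) * (x ⬝ᵥ x)) atTop (𝓝 (-(0 / 2) * (x ⬝ᵥ x))) :=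
        ((htl.div_const 2).neg).mul_const _
      have h2 := (Real.continuous_exp.tendsto _).comp this
      simpa [Function.comp_def] using h2
    by_cases hxC : x ∈ C
    · have hxi : x ∈ interior C := by
        by_contra hxi
        exact hx ⟨subset_closure hxC, hxi⟩
      obtain ⟨r, hr, hb⟩ := hex x hxi
      have h1 := hh_tendsto_one hK hε hεl hr hb
      have h2 := (h1.mul hexp).const_mul (tilt B c x)
      rw [limDens, indicator_of_mem hxC]
      rw [mul_one, mul_one] at h2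
      exact h2
    · have hr : 0 < infDist x C := (hC.notMem_iff_infDist_pos hne).1 hxC
      have h1 := hh_tendsto_zero hK hε hεl hr (x := x) (fun k y hy => by
        rw [← dist_eq_norm]
        exact infDist_le_dist_of_mem (hKC k hy))
      have h2 := (h1.mul hexp).const_mul (tilt B c x)
      rw [limDens, indicator_of_notMem hxC]
      rw [mul_one, mul_zero] at h2
      exact h2

end Vale.Agent.P254.R304
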